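import Vale.Agent.P237.Four.Moment
import Vale.Agent.P237.Four.Profile

/-!
# P237, `n = 4`: Petty's inequality with equality case, from the one-dimensional lemma

With `i, v, τ` the integrals of `f²`, `f³`, `t² f³` divided by their values for the circle, the
slice bound is `R ≥ (1024/81) i³/v²`. So if `R ≤ 1024/81` then `i^(3/2) ≤ v` at every contact
point, the one-dimensional lemma gives `τ ≤ v^(3/2)`, and the John sum says that the second
moment is at most that of the ball of the same volume.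
-/

namespace Vale.Agent.P237.Four

open MeasureTheory Set Filter Topology Metric
open scoped Pointwise RealInnerProductSpace ENNReal

/-- The one-dimensional lemma. -/
def OneDimFour (a l : ℝ) : Prop :=
  ∀ f : ℝ → ℝ, ConcaveOn ℝ (Icc (-1 : ℝ) 1) f → (∀ t, f (-t) = f t) → f 0 ≤ 2 →
    (∀ t ∈ Icc (-1 : ℝ) 1, √(1 - t ^ 2) ≤ f t) →
    a * ((∫ t in (-1 : ℝ)..1, f t ^ 3) / (3 * Real.pi / 8)) +
        l * ((∫ t in (-1 : ℝ)..1, t ^ 2 * f t ^ 3) / (Real.pi / 16)) ≤
      a * ((∫ t in (-1 : ℝ)..1, f t ^ 2) / (4 / 3)) ^ (3 / 2 : ℝ) +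
        l * ((∫ t in (-1 : ℝ)..1, f t ^ 2) / (4 / 3)) ^ (9 / 4 : ℝ)

variable {a l : ℝ}

/-- A symmetric minimiser in John position with `R ≤ 1024/81` is the ball. -/
lemma john_ball (ha : 0 ≤ a) (hl : 0 < l) (h1d : OneDimFour a l) {K : Set (E 4)}
    (hK : SymBody K) (hmin : ∀ L : Set (E 4), Body L → R K ≤ R L)
    (hb : closedBall 0 1 ⊆ K) {N : ℕ} {u : Fin N → E 4} {c : Fin N → ℝ}
    (hc : ∀ i, 0 ≤ c i) (hu : ∀ i, ‖u i‖ = 1) (hle : ∀ i, ∀ x ∈ K, ⟪x, u i⟫ ≤ 1)
    (hsum : ∀ x : E 4, ∑ i, c i * ⟪x, u i⟫ ^ 2 = ‖x‖ ^ 2) (hR : R K ≤ 1024 / 81) :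
    K = closedBall 0 1 := by
  have hpi := Real.pi_pos
  have hK2 : K ⊆ closedBall 0 2 := by
    have h := john_norm_le hK.neg_mem hc hu hle hsum
    have h2 : √((4 : ℕ) : ℝ) = 2 := by
      rw [show ((4 : ℕ) : ℝ) = 2 ^ 2 by norm_num, Real.sqrt_sq (by norm_num)]
    rwa [h2] at h
  have hV0 : 0 < vol K := hK.toBody.vol_pos
  set v := vol K / (Real.pi ^ 2 / 2) with hv
  have hv0 : 0 < v := by positivity
  -- every contact point
  have key : ∀ i, (∫ x in K, ⟪x, u i⟫ ^ 2) ≤ Real.pi ^ 2 / 12 * v ^ (3 / 2 : ℝ) := by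
    intro i
    obtain ⟨h1, h2, h3, h4, h5, h6, h7⟩ := profile_facts hK hmin hb hK2 (hu i) (hle i)
    have h := h1d _ h1 h2 h3 h4
    rw [h5, h6] at h
    set I := (∫ t in (-1 : ℝ)..1, profile K (u i) t ^ 2) / (4 / 3) with hI
    have hI0 : 0 ≤ I := div_nonneg
      (intervalIntegral.integral_nonneg (by norm_num) fun t _ => sq_nonneg _) (by norm_num)
    have hv' : vol K / (4 * Real.pi / 3) / (3 * Real.pi / 8) = v := by
      rw [hv]; field_simp; ring
    rw [hv'] at h
    have h7' : 1024 / 81 * (I ^ 3 / v ^ 2) ≤ R K := by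
      refine le_of_eq_of_le ?_ h7
      rw [hI, h5, ← hv']
      field_simp
      ring
    have hX : I ^ (3 / 2 : ℝ) ≤ v := by
      have hcube : I ^ 3 ≤ v ^ 2 := by
        have h8 := h7'.trans hR
        rw [← mul_div_assoc, div_le_iff₀ (by positivity)] at h8
        linarith
      refine le_of_pow_le_pow_left₀ two_ne_zero hv0.le ?_
      rwa [← Real.rpow_natCast (I ^ (3 / 2 : ℝ)), ← Real.rpow_mul hI0,
        show (3 / 2 : ℝ) * ((2 : ℕ) : ℝ) = ((3 : ℕ) : ℝ) by norm_num, Real.rpow_natCast]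
    have hY : I ^ (9 / 4 : ℝ) ≤ v ^ (3 / 2 : ℝ) := by
      rw [show (9 / 4 : ℝ) = 3 / 2 * (3 / 2) by norm_num, Real.rpow_mul hI0]
      exact Real.rpow_le_rpow (Real.rpow_nonneg hI0 _) hX (by norm_num)
    have h9 : l * ((∫ x in K, ⟪x, u i⟫ ^ 2) / (4 * Real.pi / 3) / (Real.pi / 16)) ≤
        l * v ^ (3 / 2 : ℝ) := by
      have e1 := mul_le_mul_of_nonneg_left hX ha
      have e2 := mul_le_mul_of_nonneg_left hY hl.le
      linarith
    have h10 := le_of_mul_le_mul_left h9 hl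
    rw [div_div, div_le_iff₀ (by positivity)] at h10
    refine h10.trans_eq ?_
    ring
  -- the John sum
  have hM : ∀ i, Integrable (fun x : E 4 => ⟪x, u i⟫ ^ 2) (volume.restrict K) := fun i =>
    (by fun_prop : Continuous fun x : E 4 => ⟪x, u i⟫ ^ 2).continuousOn.integrableOn_compact
      hK.toBody.compact
  have hsumM : ∑ i, c i * ∫ x in K, ⟪x, u i⟫ ^ 2 = ∫ x in K, ‖x‖ ^ 2 := by
    simp only [← hsum, ← integral_const_mul]
    rw [integral_finsetSum _ fun i _ => (hM i).const_mul _]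
  have hw : ∑ i, c i = 4 := by rw [john_weight hu hsum]; norm_num
  have hS : ∫ x in K, ‖x‖ ^ 2 ≤ Real.pi ^ 2 / 3 * v ^ (3 / 2 : ℝ) := by
    rw [← hsumM]
    refine (Finset.sum_le_sum fun i _ => mul_le_mul_of_nonneg_left (key i) (hc i)).trans_eq ?_
    rw [← Finset.sum_mul, hw]
    ring
  -- the ball of the same volume
  set r := v ^ (1 / 4 : ℝ) with hr
  have hr0 : 0 ≤ r := Real.rpow_nonneg hv0.le _
  have hr4 : r ^ 4 = v := by
    rw [hr, show (1 / 4 : ℝ) = ((4 : ℕ) : ℝ)⁻¹ by norm_num]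
    exact Real.rpow_inv_natCast_pow hv0.le (by norm_num)
  have hr6 : r ^ 6 = v ^ (3 / 2 : ℝ) := by
    rw [hr, ← Real.rpow_natCast, ← Real.rpow_mul hv0.le]
    norm_num
  have hKr := (moment_ge hK.toBody hr0 (by rw [hr4, hv]; field_simp)).2 (by rw [hr6]; exact hS)
  obtain ⟨i, -⟩ : ∃ i : Fin N, True := by
    rcases isEmpty_or_nonempty (Fin N) with h | ⟨⟨i⟩⟩
    · simp at hw
    · exact ⟨i, trivial⟩
  have hr1 : r ≤ 1 := by
    have hmem : r • u i ∈ K := by
      rw [hKr, mem_closedBall_zero_iff, norm_smul, hu i, mul_one, Real.norm_of_nonneg hr0]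
    have := hle i _ hmem
    rwa [real_inner_smul_left, real_inner_self_eq_norm_sq, hu i, one_pow, mul_one] at this
  exact Subset.antisymm (hKr ▸ closedBall_subset_closedBall hr1) hb

lemma pv_ball4 (v : E 4) : pv (closedBall 0 1) v = 4 * Real.pi / 3 * ‖v‖ := by
  have hB : Body (closedBall (0 : E 4) 1) :=
    body_of_ball_subset (convex_closedBall _ _) (isCompact_closedBall _ _) subset_rfl
  rw [hyps.pvProj 4 _ v (by norm_num) hB]
  rcases eq_or_ne v 0 with rfl | hv
  · simp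
  set u := ‖v‖⁻¹ • v with hu
  have hu1 : ‖u‖ = 1 := norm_smul_inv_norm hv
  have himg : (Perp u).orthogonalProjectionOnto '' closedBall (0 : E 4) 1 = closedBall 0 1 := by
    ext y
    constructor
    · rintro ⟨x, hx, rfl⟩
      rw [mem_closedBall_zero_iff] at hx ⊢
      exact ((Perp u).norm_orthogonalProjectionOnto_apply_le x).trans hx
    · intro hy
      refine ⟨(y : E 4), by simpa using hy, ?_⟩
      exact Submodule.orthogonalProjectionOnto_mem_subspace_eq_self y
  rw [projVol, himg, volume_ball_perp hu1 1 zero_le_one, ENNReal.toReal_ofReal (by positivity)]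
  ring

lemma projBody_ball4 :
    projBody (closedBall (0 : E 4) 1) = (4 * Real.pi / 3) • closedBall 0 1 := by
  have hc := four_pi_third_pos
  ext y
  rw [mem_smul_set_iff_inv_smul_mem₀ hc.ne', mem_closedBall_zero_iff, norm_smul,
    Real.norm_of_nonneg (inv_nonneg.2 hc.le), inv_mul_le_iff₀ hc, mul_one]
  simp only [projBody, mem_ofPred_eq, pv_ball4]
  constructor
  · intro h
    have := h y
    rw [real_inner_self_eq_norm_mul_norm] at this
    rcases eq_or_lt_of_le (norm_nonneg y) with h0 | h0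
    · rw [← h0]; exact hc.le
    · exact le_of_mul_le_mul_right (by linarith) h0
  · intro h v
    exact (real_inner_le_norm y v).trans (mul_le_mul_of_nonneg_right h (norm_nonneg v))

lemma R_ball4 : R (closedBall (0 : E 4) 1) = 1024 / 81 := by
  rw [R, projBody_ball4, vol_smul, vol_ball4 1 zero_le_one, abs_of_pos four_pi_third_pos,
    show (4 : ℕ) - 1 = 3 from rfl]
  field_simp
  ring

/-- Every symmetric minimiser has `R ≥ 1024/81`, with equality only for ellipsoids. -/
lemma symm_minimizer4 (ha : 0 ≤ a) (hl : 0 < l) (h1d : OneDimFour a l) {K : Set (E 4)}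
    (hK : SymBody K) (hmin : ∀ L : Set (E 4), Body L → R K ≤ R L) :
    1024 / 81 ≤ R K ∧
    (R K ≤ 1024 / 81 → ∃ T : E 4 ≃L[ℝ] E 4, K = T '' closedBall 0 1) := by
  obtain ⟨T, N, u, c, hb, hc, hu, hle, hsum⟩ := hyps.john 4 K (by norm_num) hK
  have hRT := R_image (by norm_num : 1 ≤ 4) T K
  have h := john_ball ha hl h1d (hK.image T) (fun L hL => hRT ▸ hmin L hL) hb hc hu hle hsum
  refine ⟨?_, fun hR => ⟨T.symm, ?_⟩⟩
  · by_contra! hlt
    have := h (hRT ▸ hlt.le)
    rw [this, R_ball4] at hRT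
    linarith
  · rw [← h (hRT ▸ hR), T.symm_image_image]

/-- Petty's inequality in dimension four. -/
theorem petty_ge4 (ha : 0 ≤ a) (hl : 0 < l) (h1d : OneDimFour a l) {K : Set (E 4)} (hK : Body K) :
    1024 / 81 ≤ R K := by
  obtain ⟨M, hM, hmin⟩ := exists_minimizer hyps.toDualityHyps hyps.john (by norm_num : 2 ≤ 4)
  exact (symm_minimizer4 ha hl h1d hM.1 hmin).1.trans (hmin K hK)

/-- The equality case. -/
theorem petty_eq_iff4 (ha : 0 ≤ a) (hl : 0 < l) (h1d : OneDimFour a l) {K : Set (E 4)}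
    (hK : Body K) :
    R K = 1024 / 81 ↔
      ∃ (x : E 4) (T : E 4 ≃L[ℝ] E 4), K = (fun y => x + T y) '' closedBall 0 1 := by
  have haff : ∀ (x : E 4) (T : E 4 ≃L[ℝ] E 4) (s : Set (E 4)),
      (fun y => x + T y) '' s = x +ᵥ T '' s := fun x T s => by
    rw [← image_vadd, image_image]
    rfl
  constructor
  · intro hR
    obtain ⟨hP, -⟩ := hyps.projBody 4 K (by norm_num) hK
    have hle := R_projBody_le hyps.toDualityHyps (by norm_num) hK
    have hmin : ∀ L : Set (E 4), Body L → R (projBody K) ≤ R L := fun L hL =>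
      hle.trans (hR ▸ petty_ge4 ha hl h1d hL)
    obtain ⟨T, hT⟩ := (symm_minimizer4 ha hl h1d hP hmin).2 (hR ▸ hle)
    obtain ⟨x, hx⟩ := eq_of_R_le hyps.toDualityHyps (by norm_num) hK
      (hR ▸ petty_ge4 ha hl h1d hP.toBody)
    have hd : (0 : ℝ) < |LinearMap.det T.toLinearEquiv.toLinearMap| :=
      abs_pos.2 (det_ne_zero' T)
    set L := T.toLinearEquiv.toLinearMap with hL
    let A : E 4 ≃L[ℝ] E 4 := (LinearEquiv.ofIsUnitDet
      (f := LinearMap.adjoint L) (v := (EuclideanSpace.basisFun (Fin 4) ℝ).toBasis)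
      (v' := (EuclideanSpace.basisFun (Fin 4) ℝ).toBasis) (by
        rw [LinearMap.det_toMatrix, det_adjoint]
        exact T.toLinearEquiv.isUnit_det')).toContinuousLinearEquiv
    have hA : A '' projBody (projBody K) =
        (|LinearMap.det L| * (4 * Real.pi / 3)) • closedBall (0 : E 4) 1 := by
      rw [hT, show (A : E 4 → E 4) = LinearMap.adjoint L from rfl, hL, projBody_image,
        projBody_ball4, smul_smul]
    have hne : |LinearMap.det L| * (4 * Real.pi / 3) ≠ 0 := (mul_pos hd four_pi_third_pos).ne'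
    set s := vol K / vol (projBody K) with hs
    have hs0 : s ≠ 0 := (div_pos hK.vol_pos hP.toBody.vol_pos).ne'
    refine ⟨x, (dil _ hne).trans (A.symm.trans (dil s hs0)), ?_⟩
    rw [haff, hx]
    congr 1
    have hA' := congrArg (A.symm '' ·) hA
    simp only [A.symm_image_image] at hA'
    rw [hA']
    rw [← dil_image _ hne, ← dil_image s hs0, image_image, image_image]
    rfl
  · rintro ⟨x, T, rfl⟩
    rw [haff, R_vadd, R_image (by norm_num), R_ball4]

/-- An ellipsoid in `E 4`: an affine image of the closed unit ball. -/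
def IsEllipsoid4 (K : Set (E 4)) : Prop :=
  ∃ (x : E 4) (T : E 4 ≃L[ℝ] E 4), K = (fun y => x + T y) '' closedBall 0 1

/-- The public form. -/
theorem petty_four (ha : 0 ≤ a) (hl : 0 < l) (h1d : OneDimFour a l) (K : Set (E 4))
    (hc : Convex ℝ K) (hk : IsCompact K) (hi : (interior K).Nonempty) :
    (∀ u : E 4, ‖u‖ = 1 →
      IsGreatest ((fun y => ⟪y, u⟫) '' ProjectionBody K) (shadow K u)) ∧
    1024 / 81 * (volume K).toReal ^ 3 ≤ (volume (ProjectionBody K)).toReal ∧
    ((volume (ProjectionBody K)).toReal = 1024 / 81 * (volume K).toReal ^ 3 ↔ IsEllipsoid4 K) := by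
  have hK : Body K := ⟨hc, hk, hi⟩
  have hn : (2 : ℕ) ≤ 4 := by norm_num
  rw [projectionBody_eq hyps hn hK]
  have hp : (0 : ℝ) < vol K ^ 3 := pow_pos hK.vol_pos 3
  refine ⟨fun u hu => ?_, (le_div_iff₀ hp).1 (petty_ge4 ha hl h1d hK), ?_⟩
  · simp only [shadow_eq]
    have := (hyps.projBody 4 K hn hK).2 u
    rwa [hyps.pvProj 4 K u hn hK, hu, inv_one, one_smul, one_mul] at this
  · rw [IsEllipsoid4, ← petty_eq_iff4 ha hl h1d hK]
    exact (div_eq_iff hp.ne').symm

end Vale.Agent.P237.Four
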