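import Vale.Agent.P237.OneDim
import Vale.Agent.P237.Four.Assembly

/-!
# P237, `n = 4`: the one-dimensional lemma from the two-variable inequality `KeyFour`

Along the tangent homotopy `F b` (minimum of `f` and the tangent of the circle at `b`) the quantity
`a (3/2 ∫F²)^(3/2) + l (3/2 ∫F²)^(9/4) - ∫ wt F³` does not decrease, with `a = 211/250`,
`l = 13/125`.
-/

namespace Vale.Agent.P237.Four

open MeasureTheory Set Filter Topology Real intervalIntegral
open Vale.Agent.P237.OneDim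
open scoped Interval

/-- Rational upper bound for `16 a / (3π)`. -/
noncomputable def cA : ℝ := 16 / 3 * (31831 / 100000) * (211 / 250)

/-- Rational upper bound for `32 l / π`. -/
noncomputable def cB : ℝ := 32 * (31831 / 100000) * (13 / 125)

/-- Lower bound for `∫₀¹ F²` when the tangent at `b = √(1 - s²)` is active on a segment of length
`b s r`. -/
noncomputable def keyJ (s r e : ℝ) : ℝ :=
  √(1 - s ^ 2) * ((1 - s * r) * (s + (1 - s ^ 2) * r) ^ 2 + s ^ 3 * r
      + (1 - s ^ 2) * s ^ 2 * r ^ 2 + (1 - s ^ 2) ^ 2 * s * r ^ 3 / 3 - (2 + s ^ 2) / 3)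
    + 2 / 3 + (e - e ^ 3 / 3 - e * (s + (1 - s ^ 2) * r) ^ 2)

/-- The polynomial from `∫ wt F² F'`. -/
noncomputable def keyQ (s r : ℝ) : ℝ :=
  (cA + cB * (1 - s ^ 2)) *
      (s ^ 2 / 2 + 2 * (1 - s ^ 2) * s * r / 3 + (1 - s ^ 2) ^ 2 * r ^ 2 / 4)
    - 2 * cB * ((1 - s ^ 2) * s ^ 3 * r / 3 + (1 - s ^ 2) ^ 2 * s ^ 2 * r ^ 2 / 2
        + (1 - s ^ 2) ^ 3 * s * r ^ 3 / 5)
    + cB * ((1 - s ^ 2) * s ^ 4 * r ^ 2 / 4 + 2 * (1 - s ^ 2) ^ 2 * s ^ 3 * r ^ 3 / 5
        + (1 - s ^ 2) ^ 3 * s ^ 2 * r ^ 4 / 6)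

/-- The certified two-variable inequality; `h` stands for `3/2 ∫F²`. -/
def KeyFour : Prop :=
  ∀ s r h : ℝ, 0 < s → s ≤ 1 → 0 ≤ r → s * r ≤ 1 → s + (1 - s ^ 2) * r ≤ 2 → 0 ≤ h →
    (∀ e ∈ Icc (0 : ℝ) 1, 3 / 2 * keyJ s r e ≤ h) →
    keyQ s r ≤ (3 / 2 * (211 / 250) * h ^ (1 / 2 : ℝ) + 9 / 4 * (13 / 125) * h ^ (5 / 4 : ℝ))
      * (s / 2 + (1 - s ^ 2) * r / 3)

/-- The weight of `F³`. -/
noncomputable def wt4 (x : ℝ) : ℝ :=
  211 / 250 * (16 / (3 * π)) + 13 / 125 * (32 / π) * x ^ 2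

lemma wt4_le (x : ℝ) : wt4 x ≤ cA + cB * x ^ 2 := by
  have h : 1 / π ≤ 31831 / 100000 := by
    rw [div_le_div_iff₀ Real.pi_pos (by norm_num)]
    linarith [Real.pi_gt_d6]
  have e : wt4 x = (211 / 250 * (16 / 3) + 13 / 125 * 32 * x ^ 2) * (1 / π) := by
    unfold wt4; field_simp
  rw [e]
  refine (mul_le_mul_of_nonneg_left h (by positivity)).trans (le_of_eq ?_)
  unfold cA cB; ring

lemma wt4_bound {x : ℝ} (hx : x ∈ Icc (0 : ℝ) 1) : 0 ≤ wt4 x ∧ wt4 x ≤ 3 := by
  refine ⟨by unfold wt4; positivity, (wt4_le x).trans ?_⟩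
  unfold cA cB; nlinarith [hx.1, hx.2]

/-- The properties of the profile. -/
structure Prof4 (f : ℝ → ℝ) : Prop where
  conc : ConcaveOn ℝ (Icc (-1 : ℝ) 1) f
  even : ∀ t, f (-t) = f t
  zero_le : f 0 ≤ 2
  circle : ∀ t ∈ Icc (-1 : ℝ) 1, √(1 - t ^ 2) ≤ f t

variable {f : ℝ → ℝ}

/-- `∫ F²`. -/
noncomputable def sqI (f : ℝ → ℝ) (b : ℝ) : ℝ := ∫ x in (0 : ℝ)..1, hom f b x ^ 2

/-- `∫ wt F³`. -/
noncomputable def cubW (f : ℝ → ℝ) (b : ℝ) : ℝ := ∫ x in (0 : ℝ)..1, wt4 x * hom f b x ^ 3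

/-- The right hand side as a function of `J = ∫₀¹ F²`. -/
noncomputable def phi4 (J : ℝ) : ℝ :=
  211 / 250 * (3 / 2 * J) ^ (3 / 2 : ℝ) + 13 / 125 * (3 / 2 * J) ^ (9 / 4 : ℝ)

namespace Prof4

lemma anti (hf : Prof4 f) : AntitoneOn f (Icc 0 1) := by
  intro x hx y hy hxy
  have := hf.conc.min_le_of_mem_Icc (x := -y) (y := y) ⟨by linarith [hy.2], by linarith [hy.1]⟩
    ⟨by linarith [hy.1], hy.2⟩ (z := x) ⟨by linarith [hx.1, hy.1], hxy⟩
  simpa [hf.even] using this

lemma le_max' (hf : Prof4 f) {x : ℝ} (hx : x ∈ Icc (0 : ℝ) 1) : f x ≤ 2 :=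
  (hf.anti ⟨le_rfl, zero_le_one⟩ hx hx.1).trans hf.zero_le

lemma circle' (hf : Prof4 f) {x : ℝ} (hx : x ∈ Icc (0 : ℝ) 1) : √(1 - x ^ 2) ≤ f x :=
  hf.circle x ⟨by linarith [hx.1], hx.2⟩

lemma nonneg (hf : Prof4 f) {x : ℝ} (hx : x ∈ Icc (0 : ℝ) 1) : 0 ≤ f x :=
  (sqrt_nonneg _).trans (hf.circle' hx)

lemma meas (hf : Prof4 f) : AEStronglyMeasurable f (volume.restrict (Ι (0 : ℝ) 1)) := by
  have h : IntegrableOn f (Icc 0 1) volume := hf.anti.integrableOn_isCompact isCompact_Icc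
  exact h.aestronglyMeasurable.mono_measure
    (Measure.restrict_mono (by rw [uIoc_of_le zero_le_one]; exact Ioc_subset_Icc_self) le_rfl)

lemma hom_mem (hf : Prof4 f) {b x : ℝ} (hb0 : 0 ≤ b) (hb1 : b < 1) (hx : x ∈ Icc (0 : ℝ) 1) :
    0 ≤ hom f b x ∧ hom f b x ≤ 2 := by
  refine ⟨le_min (hf.nonneg hx) (div_nonneg ?_ (sqrt_nonneg _)),
    (min_le_left _ _).trans (hf.le_max' hx)⟩
  rcases le_total b x with h | h
  · rw [max_eq_right h]; nlinarith [hx.1, hx.2]
  · rw [max_eq_left h]; nlinarith [hx.1, hx.2]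

lemma hom_meas (hf : Prof4 f) (b : ℝ) :
    AEStronglyMeasurable (hom f b) (volume.restrict (Ι (0 : ℝ) 1)) :=
  (hf.meas.aemeasurable.min (by unfold tang; fun_prop)).aestronglyMeasurable

lemma cub_meas (hf : Prof4 f) (b : ℝ) :
    AEStronglyMeasurable (fun x => wt4 x * hom f b x ^ 3) (volume.restrict (Ι (0 : ℝ) 1)) :=
  (Continuous.aestronglyMeasurable (by unfold wt4; fun_prop)).mul ((hf.hom_meas b).pow 3)

lemma sq_int (hf : Prof4 f) {b : ℝ} (h0 : 0 ≤ b) (h1 : b < 1) :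
    IntervalIntegrable (fun x => hom f b x ^ 2) volume 0 1 :=
  Prof.integrable_of_bound (C := 2 ^ 2) ((hf.hom_meas b).pow 2) fun x hx => by
    rw [abs_of_nonneg (sq_nonneg _)]
    exact pow_le_pow_left₀ (hf.hom_mem h0 h1 hx).1 (hf.hom_mem h0 h1 hx).2 2

lemma cub_int (hf : Prof4 f) {b : ℝ} (h0 : 0 ≤ b) (h1 : b < 1) :
    IntervalIntegrable (fun x => wt4 x * hom f b x ^ 3) volume 0 1 :=
  Prof.integrable_of_bound (C := 3 * 2 ^ 3) (hf.cub_meas b) fun x hx => by
    obtain ⟨h2, h3⟩ := hf.hom_mem h0 h1 hx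
    obtain ⟨h4, h5⟩ := wt4_bound hx
    rw [abs_of_nonneg (mul_nonneg h4 (pow_nonneg h2 3))]
    exact mul_le_mul h5 (pow_le_pow_left₀ h2 h3 3) (pow_nonneg h2 3) (by norm_num)

lemma sq_sub_le (hf : Prof4 f) {b b' B x : ℝ} (hx : x ∈ Icc (0 : ℝ) 1) (h0 : 0 ≤ b) (h : b ≤ b')
    (h2 : b' ≤ B) (hB : B < 1) :
    |hom f b' x ^ 2 - hom f b x ^ 2| ≤ 4 / √(1 - B ^ 2) ^ 3 * (b' - b) := by
  obtain ⟨a1, a2⟩ := hf.hom_mem h0 (lt_of_le_of_lt (h.trans h2) hB) hx
  obtain ⟨a3, a4⟩ := hf.hom_mem (h0.trans h) (h2.trans_lt hB) hx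
  have hd := Prof.hom_sub_le (f := f) hx h0 h h2 hB
  rw [show hom f b' x ^ 2 - hom f b x ^ 2 =
    (hom f b' x + hom f b x) * (hom f b' x - hom f b x) by ring, abs_mul,
    abs_of_nonneg (add_nonneg a3 a1)]
  exact (mul_le_mul (by linarith : hom f b' x + hom f b x ≤ 4) hd (abs_nonneg _)
    (by norm_num)).trans (le_of_eq (by ring))

lemma cub_sub_le (hf : Prof4 f) {b b' B x : ℝ} (hx : x ∈ Icc (0 : ℝ) 1) (h0 : 0 ≤ b) (h : b ≤ b')
    (h2 : b' ≤ B) (hB : B < 1) :
    |wt4 x * hom f b' x ^ 3 - wt4 x * hom f b x ^ 3| ≤ 36 / √(1 - B ^ 2) ^ 3 * (b' - b) := by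
  obtain ⟨a1, a2⟩ := hf.hom_mem h0 (lt_of_le_of_lt (h.trans h2) hB) hx
  obtain ⟨a3, a4⟩ := hf.hom_mem (h0.trans h) (h2.trans_lt hB) hx
  obtain ⟨h4, h5⟩ := wt4_bound hx
  have hd := Prof.hom_sub_le (f := f) hx h0 h h2 hB
  have hs : 0 ≤ hom f b' x ^ 2 + hom f b' x * hom f b x + hom f b x ^ 2 := by positivity
  rw [show wt4 x * hom f b' x ^ 3 - wt4 x * hom f b x ^ 3 =
    wt4 x * (hom f b' x ^ 2 + hom f b' x * hom f b x + hom f b x ^ 2) *
      (hom f b' x - hom f b x) by ring, abs_mul, abs_of_nonneg (mul_nonneg h4 hs)]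
  refine (mul_le_mul (b := 36) ?_ hd (abs_nonneg _) (by norm_num)).trans (le_of_eq (by ring))
  have h12 : hom f b' x ^ 2 + hom f b' x * hom f b x + hom f b x ^ 2 ≤ 12 := by
    nlinarith [mul_le_mul a4 a2 a1 (by norm_num), mul_le_mul a4 a4 a3 (by norm_num),
      mul_le_mul a2 a2 a1 (by norm_num)]
  exact (mul_le_mul h5 h12 hs (by norm_num)).trans (by norm_num)

lemma continuousOn_H (hf : Prof4 f) {B : ℝ} (hB : B < 1) :
    ContinuousOn (fun b => phi4 (sqI f b) - cubW f b) (Icc 0 B) := by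
  have hc : Continuous phi4 := by
    unfold phi4
    exact (((Real.continuous_rpow_const (by norm_num)).comp
      (continuous_const.mul continuous_id)).const_mul _).add
      (((Real.continuous_rpow_const (by norm_num)).comp
        (continuous_const.mul continuous_id)).const_mul _)
  refine (hc.comp_continuousOn (Prof.lip_cont (C := 4 / √(1 - B ^ 2) ^ 3) fun b b' h0 h h2 => ?_)).sub
    (Prof.lip_cont (C := 36 / √(1 - B ^ 2) ^ 3) fun b b' h0 h h2 => ?_)
  · rw [sqI, sqI, ← integral_sub (hf.sq_int (h0.trans h) (h2.trans_lt hB))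
      (hf.sq_int h0 (by linarith))]
    exact Prof.abs_integral_le fun x hx => hf.sq_sub_le hx h0 h h2 hB
  · rw [cubW, cubW, ← integral_sub (hf.cub_int (h0.trans h) (h2.trans_lt hB))
      (hf.cub_int h0 (by linarith))]
    exact Prof.abs_integral_le fun x hx => hf.cub_sub_le hx h0 h h2 hB

lemma hasDeriv_sqI (hf : Prof4 f) {b : ℝ} (h0 : 0 ≤ b) (h1 : b < 1) :
    HasDerivWithinAt (sqI f) (∫ x in (0 : ℝ)..1, 2 * hom f b x * Prof.dHom f b x) (Ioi b) b := by
  obtain ⟨B, hbB, hB⟩ := exists_between h1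
  refine Prof.hasDeriv_param hbB (fun z hz => hf.sq_int (h0.trans hz.1) (hz.2.trans_lt hB))
    (fun z hz x hx => hf.sq_sub_le hx h0 hz.1 hz.2 hB) fun x hx hxb => ?_
  have hF : HasDerivWithinAt (fun z => hom f z x) (Prof.dHom f b x) (Ioi b) b :=
    (hasDerivWithinAt_iff_tendsto_slope' (show b ∉ Ioi b from lt_irrefl b)).2
      (Prof.tendsto_slope_hom (f := f) h0 h1 hx.1 hxb)
  have := (hasDerivWithinAt_iff_tendsto_slope' (show b ∉ Ioi b from lt_irrefl b)).1 (hF.pow 2)
  simpa [Pi.pow_def, mul_assoc, mul_comm, mul_left_comm] using this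

lemma hasDeriv_cubW (hf : Prof4 f) {b : ℝ} (h0 : 0 ≤ b) (h1 : b < 1) :
    HasDerivWithinAt (cubW f)
      (∫ x in (0 : ℝ)..1, 3 * wt4 x * hom f b x ^ 2 * Prof.dHom f b x) (Ioi b) b := by
  obtain ⟨B, hbB, hB⟩ := exists_between h1
  refine Prof.hasDeriv_param hbB (fun z hz => hf.cub_int (h0.trans hz.1) (hz.2.trans_lt hB))
    (fun z hz x hx => hf.cub_sub_le hx h0 hz.1 hz.2 hB) fun x hx hxb => ?_
  have hF : HasDerivWithinAt (fun z => hom f z x) (Prof.dHom f b x) (Ioi b) b :=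
    (hasDerivWithinAt_iff_tendsto_slope' (show b ∉ Ioi b from lt_irrefl b)).2
      (Prof.tendsto_slope_hom (f := f) h0 h1 hx.1 hxb)
  have := (hasDerivWithinAt_iff_tendsto_slope' (show b ∉ Ioi b from lt_irrefl b)).1
    ((hF.pow 3).const_mul (wt4 x))
  simpa [Pi.pow_def, mul_assoc, mul_comm, mul_left_comm] using this

lemma seg_low (hf : Prof4 f) {b t y : ℝ} (ht0 : 0 ≤ t) (htb : t < b) (h1 : b < 1) (hy0 : 0 ≤ y)
    (hyf : 1 - t ^ 2 ≤ y ^ 2) (hlow : ∀ x, 0 ≤ x → x < t → f x ≤ tang x b)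
    (hfy : ∀ x, 0 ≤ x → x < t → y ≤ f x) :
    ∀ e ∈ Icc (0 : ℝ) 1,
      t * y ^ 2 + (e - e ^ 3 / 3 - e * y ^ 2) ≤ ∫ x in (0 : ℝ)..t, hom f b x ^ 2 := by
    intro e he
    have h0 : 0 ≤ b := ht0.trans htb.le
    have htm : t ∈ Icc (0 : ℝ) 1 := ⟨ht0, by linarith⟩
    have hFi : IntervalIntegrable (fun x => hom f b x ^ 2) volume 0 t :=
      (hf.sq_int h0 h1).mono_set (uIcc_subset_uIcc
        (by rw [uIcc_of_le zero_le_one]; exact ⟨le_rfl, zero_le_one⟩)
        (by rwa [uIcc_of_le zero_le_one]))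
    have hm : Continuous fun x : ℝ => max (1 - x ^ 2) (y ^ 2) := by fun_prop
    refine le_trans ?_ (intervalIntegral.integral_mono_on_of_le_Ioo ht0
      (hm.intervalIntegrable 0 t) hFi fun x hx => ?_)
    swap
    · have hx1 : x ∈ Icc (0 : ℝ) 1 := ⟨hx.1.le, by linarith [hx.2, htm.2]⟩
      rw [hom, max_eq_left (hx.2.trans htb).le, min_eq_left (hlow x hx.1.le hx.2)]
      refine max_le ?_ (pow_le_pow_left₀ hy0 (hfy x hx.1.le hx.2) 2)
      have := pow_le_pow_left₀ (sqrt_nonneg _) (hf.circle' hx1) 2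
      rwa [sq_sqrt (by nlinarith [hx1.1, hx1.2])] at this
    set d := fun x : ℝ => 1 - x ^ 2 - y ^ 2 with hd
    have hdc : Continuous d := by fun_prop
    have hval : ∀ c, ∫ x in (0 : ℝ)..c, d x = c - c ^ 3 / 3 - c * y ^ 2 := fun c => by
      rw [integral_eq_sub_of_hasDerivAt (f := fun x => x - x ^ 3 / 3 - x * y ^ 2) (fun x _ => ?_)
        (hdc.intervalIntegrable _ _)]
      · simp
      · refine (((hasDerivAt_id x).sub ((hasDerivAt_pow 3 x).div_const 3)).sub
          ((hasDerivAt_id x).mul_const (y ^ 2))).congr_deriv ?_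
        simp [hd]
    have hmax : ∫ x in (0 : ℝ)..t, max (1 - x ^ 2) (y ^ 2) =
        t * y ^ 2 + ∫ x in (0 : ℝ)..t, max (d x) 0 := by
      rw [intervalIntegral.integral_congr (g := fun x => y ^ 2 + max (d x) 0) (fun x _ => by
          simp only [hd]; rw [← max_add_add_left, add_sub_cancel, add_zero]),
        integral_add intervalIntegrable_const
          ((hdc.max continuous_const).intervalIntegrable _ _)]
      simp
    rw [hmax, ← hval e]
    have hd0 : Continuous fun x => max (d x) 0 := hdc.max continuous_const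
    rcases le_total e t with het | het
    · have q1 := intervalIntegral.integral_mono_on (μ := volume) (f := d) (g := fun x => max (d x) 0)
        he.1 (hdc.intervalIntegrable 0 e)
        (hd0.intervalIntegrable 0 e) fun x _ => le_max_left _ _
      have q2 := intervalIntegral.integral_nonneg (μ := volume) het (f := fun x => max (d x) 0)
        fun x _ => le_max_right _ _
      rw [← integral_add_adjacent_intervals (hd0.intervalIntegrable 0 e)
        (hd0.intervalIntegrable e t)]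
      linarith
    · have q1 := intervalIntegral.integral_mono_on (μ := volume) (f := d) (g := fun x => max (d x) 0)
        ht0 (hdc.intervalIntegrable 0 t) (hd0.intervalIntegrable 0 t) fun x _ => le_max_left _ _
      have q3 := hdc.intervalIntegrable (μ := volume) t e
      have q2 := intervalIntegral.integral_mono_on (μ := volume) (f := d) (g := fun _ => (0 : ℝ)) het q3
        intervalIntegrable_const fun x hx => by
          simp only [hd]; nlinarith [hx.1, ht0]
      rw [intervalIntegral.integral_zero] at q2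
      rw [← integral_add_adjacent_intervals (hdc.intervalIntegrable 0 t)
        (hdc.intervalIntegrable t e)]
      linarith

lemma cap_sq (hf : Prof4 f) {b : ℝ} (h0 : 0 ≤ b) (h1 : b < 1) :
    2 / 3 - b + b ^ 3 / 3 = ∫ x in b..1, hom f b x ^ 2 := by
  have e : EqOn (fun x => hom f b x ^ 2) (fun x => 1 - x ^ 2) (uIcc b 1) := by
    rw [uIcc_of_le h1.le]
    intro x hx
    have hx' : x ∈ Icc (0 : ℝ) 1 := ⟨h0.trans hx.1, hx.2⟩
    simp only [hom, max_eq_right hx.1, tang_self]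
    rw [min_eq_right (hf.circle' hx'), sq_sqrt (by nlinarith [hx'.1, hx'.2])]
  rw [intervalIntegral.integral_congr e,
    intervalIntegral.integral_sub intervalIntegrable_const
      (intervalIntegral.intervalIntegrable_pow 2), integral_pow]
  simp
  ring

lemma deriv_nonneg (hkey : KeyFour) (hf : Prof4 f) {b : ℝ} (h0 : 0 ≤ b) (h1 : b < 1) :
    0 ≤ (3 / 2 * (211 / 250) * (3 / 2 * sqI f b) ^ (1 / 2 : ℝ) +
          9 / 4 * (13 / 125) * (3 / 2 * sqI f b) ^ (5 / 4 : ℝ)) *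
        (3 / 2 * ∫ x in (0 : ℝ)..1, 2 * hom f b x * Prof.dHom f b x) -
      ∫ x in (0 : ℝ)..1, 3 * wt4 x * hom f b x ^ 2 * Prof.dHom f b x := by
  set E : Set ℝ := {x | 0 ≤ x ∧ x < b ∧ tang x b < f x} with hE
  set s := √(1 - b ^ 2) with hsd
  have hs : 0 < s := sqrt_pos_of_lt h0 h1
  have hss : s ^ 2 = 1 - b ^ 2 := sq_sqrt (by nlinarith)
  rcases E.eq_empty_or_nonempty with hne | hne
  · have hz : ∀ x ∈ Icc (0 : ℝ) 1, Prof.dHom f b x = 0 := fun x hx =>
      Set.indicator_of_notMem (s := {z | z < b ∧ tang z b < f z})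
        (fun hm => (Set.eq_empty_iff_forall_notMem.1 hne x) ⟨hx.1, hm⟩) _
    have e1 : ∫ x in (0 : ℝ)..1, 2 * hom f b x * Prof.dHom f b x = 0 := by
      rw [intervalIntegral.integral_congr (g := fun _ => 0) (by
        rw [uIcc_of_le zero_le_one]; exact fun x hx => by simp [hz x hx])]
      simp
    have e2 : ∫ x in (0 : ℝ)..1, 3 * wt4 x * hom f b x ^ 2 * Prof.dHom f b x = 0 := by
      rw [intervalIntegral.integral_congr (g := fun _ => 0) (by
        rw [uIcc_of_le zero_le_one]; exact fun x hx => by simp [hz x hx])]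
      simp
    rw [e1, e2]; simp
  set t := sInf E with htd
  have hbd : BddBelow E := ⟨0, fun x hx => hx.1⟩
  obtain ⟨e₀, he₀⟩ := hne
  have ht0 : 0 ≤ t := le_csInf ⟨e₀, he₀⟩ fun x hx => hx.1
  have htb : t < b := (csInf_le hbd he₀).trans_lt he₀.2.1
  have hup : ∀ x, t < x → x < b → tang x b < f x := by
    intro x hx hxb
    obtain ⟨e, he, hex⟩ := exists_lt_of_csInf_lt ⟨e₀, he₀⟩ hx
    set θ := (b - x) / (b - e) with hθ
    have hbe : 0 < b - e := by linarith
    have hθ0 : 0 < θ := div_pos (by linarith) hbe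
    have hθ1 : θ ≤ 1 := (div_le_one hbe).2 (by linarith)
    have hxc : θ • e + (1 - θ) • b = x := by
      simp only [smul_eq_mul, hθ]; field_simp; ring
    have hc := hf.conc.2 (x := e) (y := b) ⟨by linarith [he.1], by linarith [he.2.1]⟩
      ⟨by linarith, h1.le⟩ hθ0.le (sub_nonneg.2 hθ1) (by ring)
    rw [hxc] at hc
    simp only [smul_eq_mul] at hc hxc
    have hb' : tang b b ≤ f b := by rw [tang_self]; exact hf.circle' ⟨h0, h1.le⟩
    have haff : tang x b = θ * tang e b + (1 - θ) * tang b b := by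
      simp only [tang, ← hsd]; rw [← hxc]; field_simp; ring
    have q1 := mul_lt_mul_of_pos_left he.2.2 hθ0
    have q2 := mul_le_mul_of_nonneg_left hb' (sub_nonneg.2 hθ1)
    linarith
  have hlow : ∀ x, 0 ≤ x → x < t → f x ≤ tang x b := by
    intro x hx hxt
    by_contra hc
    exact absurd (csInf_le hbd ⟨hx, hxt.trans htb, not_le.1 hc⟩) (not_le.2 hxt)
  have hlim : ∀ M, (∀ e ∈ E, tang e b ≤ M) → tang t b ≤ M := by
    intro M hM
    refine le_of_forall_pos_le_add fun ε hε => ?_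
    obtain ⟨e, he, het⟩ := exists_lt_of_csInf_lt ⟨e₀, he₀⟩
      (lt_add_of_pos_right t (show (0 : ℝ) < ε * s by positivity))
    have h3 : tang t b = tang e b + b * (e - t) / s := by
      simp only [tang, ← hsd]; field_simp; ring
    have h4 : b * (e - t) / s ≤ ε := by
      rw [div_le_iff₀ hs]
      calc b * (e - t) ≤ 1 * (e - t) := by
            refine mul_le_mul_of_nonneg_right h1.le ?_
            linarith [csInf_le hbd he]
        _ ≤ ε * s := by linarith
    linarith [hM e he]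
  set y := tang t b with hyd
  have hy : y ≤ 2 := hlim _ fun e he =>
    he.2.2.le.trans (hf.le_max' ⟨he.1, by linarith [he.2.1]⟩)
  have hfy : ∀ x, 0 ≤ x → x < t → y ≤ f x := fun x hx hxt => hlim _ fun e he =>
    he.2.2.le.trans (hf.anti ⟨hx, by linarith⟩ ⟨he.1, by linarith [he.2.1]⟩
      (hxt.le.trans (csInf_le hbd he)))
  set L := b - t with hL
  -- both derivative integrals live on `(t, b]`
  have hDae : ∀ᵐ x ∂volume, x ∈ Ι (0 : ℝ) 1 → ∀ g : ℝ → ℝ → ℝ,
      g x (hom f b x) * Prof.dHom f b x =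
        (Ioc t b).indicator (fun z => g z ((1 - b * z) / s) * ((b - z) / s ^ 3)) x := by
    filter_upwards [Measure.ae_ne volume t, Measure.ae_ne volume b] with x hxt hxb hx g
    rw [uIoc_of_le zero_le_one] at hx
    by_cases hm : x ∈ Ioc t b
    · have hlt : x < b := lt_of_le_of_ne hm.2 hxb
      have hD : Prof.dHom f b x = (b - x) / s ^ 3 :=
        Set.indicator_of_mem (show x ∈ {z | z < b ∧ tang z b < f z} from ⟨hlt, hup x hm.1 hlt⟩) _
      rw [Set.indicator_of_mem hm, hD, hom, max_eq_left hm.2, min_eq_right (hup x hm.1 hlt).le, tang]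
    · have hD : Prof.dHom f b x = 0 := Set.indicator_of_notMem (s := {z | z < b ∧ tang z b < f z})
        (fun h => hm ⟨lt_of_le_of_ne (csInf_le hbd ⟨hx.1.le, h⟩) (Ne.symm hxt), h.1.le⟩) _
      rw [Set.indicator_of_notMem hm, hD, mul_zero]
  have hred : ∀ g : ℝ → ℝ → ℝ, ∫ x in (0 : ℝ)..1, g x (hom f b x) * Prof.dHom f b x =
      ∫ z in t..b, g z ((1 - b * z) / s) * ((b - z) / s ^ 3) := by
    intro g
    rw [integral_congr_ae (hDae.mono fun x hx hm => hx hm g),
      integral_of_le zero_le_one, setIntegral_indicator measurableSet_Ioc,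
      inter_eq_right.2 (Ioc_subset_Ioc ht0 h1.le), ← integral_of_le htb.le]
  have hI1 : ∫ x in (0 : ℝ)..1, 2 * hom f b x * Prof.dHom f b x =
      2 / s ^ 4 * (s ^ 2 * L ^ 2 / 2 + b * L ^ 3 / 3) := by
    rw [hred fun _ v => 2 * v, integral_eq_sub_of_hasDerivAt
      (f := fun x => -(2 / s ^ 4) * (s ^ 2 * (b - x) ^ 2 / 2 + b * (b - x) ^ 3 / 3))
      (fun x _ => ?_) (Continuous.intervalIntegrable (by fun_prop) _ _)]
    · simp only [sub_self, hL]; ring
    · have hu := (hasDerivAt_id x).const_sub b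
      refine ((((hu.pow 2).const_mul (s ^ 2)).div_const 2 |>.add
        (((hu.pow 3).const_mul b).div_const 3)).const_mul (-(2 / s ^ 4))).congr_deriv ?_
      simp only [id_eq]
      push_cast
      field_simp
      rw [hss]
      ring
  have hI2 : ∫ x in (0 : ℝ)..1, 3 * wt4 x * hom f b x ^ 2 * Prof.dHom f b x ≤
      3 / s ^ 5 * ((cA + cB * b ^ 2) *
          (s ^ 4 * L ^ 2 / 2 + 2 * s ^ 2 * b * L ^ 3 / 3 + b ^ 2 * L ^ 4 / 4)
        - 2 * b * cB * (s ^ 4 * L ^ 3 / 3 + 2 * s ^ 2 * b * L ^ 4 / 4 + b ^ 2 * L ^ 5 / 5)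
        + cB * (s ^ 4 * L ^ 4 / 4 + 2 * s ^ 2 * b * L ^ 5 / 5 + b ^ 2 * L ^ 6 / 6)) := by
    rw [hred fun z v => 3 * wt4 z * v ^ 2]
    refine le_trans (intervalIntegral.integral_mono_on htb.le
      (Continuous.intervalIntegrable (by unfold wt4; fun_prop) _ _)
      (Continuous.intervalIntegrable (u := fun z : ℝ =>
        3 * (cA + cB * z ^ 2) * ((1 - b * z) / s) ^ 2 * ((b - z) / s ^ 3)) (by fun_prop) _ _)
      fun z hz => ?_) (le_of_eq ?_)
    · refine mul_le_mul_of_nonneg_right (mul_le_mul_of_nonneg_right ?_ (sq_nonneg _))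
        (div_nonneg (by linarith [hz.2]) (pow_nonneg hs.le 3))
      linarith [wt4_le z]
    rw [integral_eq_sub_of_hasDerivAt (f := fun x => -(3 / s ^ 5) * ((cA + cB * b ^ 2) *
          (s ^ 4 * (b - x) ^ 2 / 2 + 2 * s ^ 2 * b * (b - x) ^ 3 / 3 + b ^ 2 * (b - x) ^ 4 / 4)
        - 2 * b * cB * (s ^ 4 * (b - x) ^ 3 / 3 + 2 * s ^ 2 * b * (b - x) ^ 4 / 4
          + b ^ 2 * (b - x) ^ 5 / 5)
        + cB * (s ^ 4 * (b - x) ^ 4 / 4 + 2 * s ^ 2 * b * (b - x) ^ 5 / 5
          + b ^ 2 * (b - x) ^ 6 / 6)))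
      (fun x _ => ?_) (Continuous.intervalIntegrable (by fun_prop) _ _)]
    · simp only [sub_self, hL]; ring
    · have hu := (hasDerivAt_id x).const_sub b
      refine (((((((hu.pow 2).const_mul (s ^ 4)).div_const 2).add
          (((hu.pow 3).const_mul (2 * s ^ 2 * b)).div_const 3)).add
          (((hu.pow 4).const_mul (b ^ 2)).div_const 4)).const_mul (cA + cB * b ^ 2)).sub
        ((((((hu.pow 3).const_mul (s ^ 4)).div_const 3).add
          (((hu.pow 4).const_mul (2 * s ^ 2 * b)).div_const 4)).add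
          (((hu.pow 5).const_mul (b ^ 2)).div_const 5)).const_mul (2 * b * cB)) |>.add
        ((((((hu.pow 4).const_mul (s ^ 4)).div_const 4).add
          (((hu.pow 5).const_mul (2 * s ^ 2 * b)).div_const 5)).add
          (((hu.pow 6).const_mul (b ^ 2)).div_const 6)).const_mul cB)).const_mul
          (-(3 / s ^ 5)) |>.congr_deriv ?_
      simp only [id_eq]
      push_cast
      rw [show s ^ 4 = (1 - b ^ 2) ^ 2 by rw [← hss]; ring, hss]
      field_simp
      ring
  -- the lower bound for `∫ F²`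
  have hbpos : 0 < b := ht0.trans_lt htb
  set r := L / (b * s) with hr
  have hLp : 0 < L := sub_pos.2 htb
  have hLe : L = b * s * r := by rw [hr]; field_simp
  have hyr : y = s + b ^ 2 * r := by
    rw [hyd, tang, ← hsd, hr, hL]; field_simp; rw [hss]; ring
  have hbb : 1 - s ^ 2 = b ^ 2 := by rw [hss]; ring
  have hbs : √(1 - s ^ 2) = b := by rw [hbb, sqrt_sq h0]
  have hz : (0 : ℝ) ∈ Icc (0 : ℝ) 1 := ⟨le_rfl, zero_le_one⟩
  have ho : (1 : ℝ) ∈ Icc (0 : ℝ) 1 := ⟨zero_le_one, le_rfl⟩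
  have htm : t ∈ Icc (0 : ℝ) 1 := ⟨ht0, by linarith⟩
  have hbm : b ∈ Icc (0 : ℝ) 1 := ⟨h0, h1.le⟩
  have hFi : ∀ a c, a ∈ Icc (0 : ℝ) 1 → c ∈ Icc (0 : ℝ) 1 →
      IntervalIntegrable (fun x => hom f b x ^ 2) volume a c := fun a c ha hc =>
    (hf.sq_int h0 h1).mono_set
      (uIcc_subset_uIcc (by rwa [uIcc_of_le zero_le_one]) (by rwa [uIcc_of_le zero_le_one]))
  have hy0 : 0 ≤ y := by rw [hyr]; positivity
  have hyf : 1 - t ^ 2 ≤ y ^ 2 := by
    have := pow_le_pow_left₀ (sqrt_nonneg _) (circle_le_tang h0 h1 ht0 htm.2) 2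
    rwa [sq_sqrt (by nlinarith [htm.2]), ← hyd] at this
  have p1 := hf.seg_low ht0 htb h1 hy0 hyf hlow hfy
  have p2 : s ^ 2 * L + b * L ^ 2 + b ^ 2 * L ^ 3 / (3 * s ^ 2) =
      ∫ x in t..b, hom f b x ^ 2 := by
    rw [intervalIntegral.integral_congr_ae (g := fun x => ((1 - b * x) / s) ^ 2) ?_]
    · rw [integral_eq_sub_of_hasDerivAt (f := fun x =>
        -(s ^ 2 * (b - x) + b * (b - x) ^ 2 + b ^ 2 * (b - x) ^ 3 / (3 * s ^ 2))) (fun x _ => ?_)
        (Continuous.intervalIntegrable (by fun_prop) _ _)]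
      · simp only [sub_self, hL]; ring
      · have hu := (hasDerivAt_id x).const_sub b
        refine ((((hu.const_mul (s ^ 2)).add ((hu.pow 2).const_mul b)).add
          (((hu.pow 3).const_mul (b ^ 2)).div_const (3 * s ^ 2))).neg).congr_deriv ?_
        simp only [id_eq]
        push_cast
        field_simp
        rw [hss]
        ring
    · filter_upwards [Measure.ae_ne volume b] with x hxb hx
      rw [uIoc_of_le htb.le] at hx
      rw [hom, max_eq_left hx.2, min_eq_right (hup x hx.1 (lt_of_le_of_ne hx.2 hxb)).le, tang]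
  have p3 := hf.cap_sq h0 h1
  have hJ0 : 0 ≤ sqI f b :=
    intervalIntegral.integral_nonneg zero_le_one fun x _ => sq_nonneg _
  have hkeyJ : ∀ e ∈ Icc (0 : ℝ) 1, 3 / 2 * keyJ s r e ≤ 3 / 2 * sqI f b := by
    intro e he
    have hsum : sqI f b = (∫ x in (0 : ℝ)..t, hom f b x ^ 2) + (∫ x in t..b, hom f b x ^ 2) +
        ∫ x in b..1, hom f b x ^ 2 := by
      rw [sqI, integral_add_adjacent_intervals (hFi 0 t hz htm) (hFi t b htm hbm),
        integral_add_adjacent_intervals (hFi 0 b hz hbm) (hFi b 1 hbm ho)]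
    have key : keyJ s r e = t * y ^ 2 + (e - e ^ 3 / 3 - e * y ^ 2)
        + (s ^ 2 * L + b * L ^ 2 + b ^ 2 * L ^ 3 / (3 * s ^ 2)) + (2 / 3 - b + b ^ 3 / 3) := by
      rw [show t = b - L by rw [hL]; ring, hLe, hyr, keyJ, hbs, hbb]
      field_simp
      linear_combination (-b) * hss
    linarith [p1 e he]
  have hsr : s * r ≤ 1 := by
    rw [hr, show s * (L / (b * s)) = L / b by field_simp, div_le_one hbpos]; linarith
  have hk := hkey s r (3 / 2 * sqI f b) hs (by nlinarith) (by positivity) hsr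
    (by rw [hbb, ← hyr]; exact hy) (mul_nonneg (by norm_num) hJ0) hkeyJ
  rw [hI1]
  refine sub_nonneg.2 (hI2.trans ?_)
  rw [keyQ, hbb] at hk
  generalize 3 / 2 * (211 / 250) * (3 / 2 * sqI f b) ^ (1 / 2 : ℝ) +
    9 / 4 * (13 / 125) * (3 / 2 * sqI f b) ^ (5 / 4 : ℝ) = P at hk ⊢
  have hm := mul_le_mul_of_nonneg_left hk (show 0 ≤ 3 * b ^ 2 * r ^ 2 / s by positivity)
  refine le_trans (le_of_eq ?_) (hm.trans (le_of_eq ?_))
  · rw [hLe]; field_simp; ring
  · rw [hLe]; field_simp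

lemma H_mono (hkey : KeyFour) (hf : Prof4 f) {B : ℝ} (h0 : 0 ≤ B) (hB : B < 1) :
    phi4 (sqI f 0) - cubW f 0 ≤ phi4 (sqI f B) - cubW f B := by
  have hd : ∀ b ∈ Ico (0 : ℝ) B, HasDerivWithinAt (fun b => -(phi4 (sqI f b) - cubW f b))
      (-((3 / 2 * (211 / 250) * (3 / 2 * sqI f b) ^ (1 / 2 : ℝ) +
          9 / 4 * (13 / 125) * (3 / 2 * sqI f b) ^ (5 / 4 : ℝ)) *
        (3 / 2 * ∫ x in (0 : ℝ)..1, 2 * hom f b x * Prof.dHom f b x) -
        ∫ x in (0 : ℝ)..1, 3 * wt4 x * hom f b x ^ 2 * Prof.dHom f b x)) (Ici b) b := by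
    intro b hb
    have h1 : b < 1 := hb.2.trans hB
    refine HasDerivWithinAt.Ici_of_Ioi ?_
    have hI := (hf.hasDeriv_sqI hb.1 h1).const_mul (3 / 2 : ℝ)
    refine ((((hI.rpow_const (p := (3 / 2 : ℝ)) (Or.inr (by norm_num))).const_mul (211 / 250 : ℝ)).add
      ((hI.rpow_const (p := (9 / 4 : ℝ)) (Or.inr (by norm_num))).const_mul (13 / 125 : ℝ))).sub
      (hf.hasDeriv_cubW hb.1 h1)).neg.congr_deriv ?_
    norm_num
    ring
  have := image_le_of_deriv_right_le_deriv_boundary (B := fun _ => -(phi4 (sqI f 0) - cubW f 0))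
    (B' := fun _ => 0) (hf.continuousOn_H hB).neg hd le_rfl continuousOn_const
    (fun b _ => hasDerivWithinAt_const _ _ _)
    (fun b hb => neg_nonpos.2 (hf.deriv_nonneg hkey hb.1 (hb.2.trans hB))) (right_mem_Icc.2 h0)
  exact neg_le_neg_iff.1 this

lemma cube_circle : ∫ x in (0 : ℝ)..1, √(1 - x ^ 2) ^ 3 = 3 * π / 16 ∧
    ∫ x in (0 : ℝ)..1, x ^ 2 * √(1 - x ^ 2) ^ 3 = π / 32 := by
  have hsin : ∀ n : ℕ, ∫ x in (0 : ℝ)..(π / 2), sin x ^ (2 * n) =
      (∫ x in (0 : ℝ)..π, sin x ^ (2 * n)) / 2 := fun n => by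
    have hc : Continuous fun x : ℝ => sin x ^ (2 * n) := by fun_prop
    have e : ∫ x in (π / 2)..π, sin x ^ (2 * n) = ∫ x in (0 : ℝ)..(π / 2), sin x ^ (2 * n) := by
      have := intervalIntegral.integral_comp_sub_left (a := (0 : ℝ)) (b := π / 2)
        (fun x => sin x ^ (2 * n)) π
      simp only [Real.sin_pi_sub, sub_zero] at this
      rw [this]; congr 1; ring
    rw [← integral_add_adjacent_intervals (hc.intervalIntegrable 0 (π / 2))
      (hc.intervalIntegrable (π / 2) π), e]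
    ring
  have hsubst : ∀ g : ℝ → ℝ, Continuous g →
      ∫ x in (0 : ℝ)..1, g x = ∫ t in (0 : ℝ)..(π / 2), g (cos t) * sin t := by
    intro g hg
    have := intervalIntegral.integral_comp_mul_deriv (a := (0 : ℝ)) (b := π / 2) (f := cos)
      (f' := fun t => -sin t) (g := g) (fun t _ => hasDerivAt_cos t)
      continuous_sin.neg.continuousOn hg
    simp only [Function.comp_def, cos_zero, cos_pi_div_two, mul_neg, intervalIntegral.integral_neg,
      intervalIntegral.integral_symm 0 1] at this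
    linarith
  have hsq : ∀ t ∈ uIcc (0 : ℝ) (π / 2), √(1 - cos t ^ 2) = sin t := fun t ht => by
    rw [uIcc_of_le (by positivity)] at ht
    rw [← sin_sq, sqrt_sq (sin_nonneg_of_nonneg_of_le_pi ht.1 (by linarith [ht.2, Real.pi_pos]))]
  have h4 : ∫ x in (0 : ℝ)..(π / 2), sin x ^ 4 = 3 * π / 16 := by
    have := hsin 2
    rw [integral_sin_pow_even] at this
    norm_num [Finset.prod_range_succ] at this
    linarith
  have h6 : ∫ x in (0 : ℝ)..(π / 2), sin x ^ 6 = 5 * π / 32 := by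
    have := hsin 3
    rw [integral_sin_pow_even] at this
    norm_num [Finset.prod_range_succ] at this
    linarith
  constructor
  · rw [hsubst _ (by fun_prop), ← h4]
    refine intervalIntegral.integral_congr fun t ht => ?_
    simp only [hsq t ht]; ring
  · rw [hsubst _ (by fun_prop), show π / 32 = 3 * π / 16 - 5 * π / 32 by ring, ← h4, ← h6,
      ← intervalIntegral.integral_sub (Continuous.intervalIntegrable (by fun_prop) _ _)
        (Continuous.intervalIntegrable (by fun_prop) _ _)]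
    refine intervalIntegral.integral_congr fun t ht => ?_
    simp only [hsq t ht]
    rw [cos_sq']; ring

lemma half_ineq (hkey : KeyFour) (hf : Prof4 f) :
    0 ≤ phi4 (∫ x in (0 : ℝ)..1, f x ^ 2) - ∫ x in (0 : ℝ)..1, wt4 x * f x ^ 3 := by
  have hc0 : Continuous fun x : ℝ => √(1 - x ^ 2) :=
    (continuous_const.sub (continuous_pow 2)).sqrt
  have h00 : phi4 (sqI f 0) - cubW f 0 = 0 := by
    have e : EqOn (hom f 0) (fun x => √(1 - x ^ 2)) (uIcc (0 : ℝ) 1) := by
      rw [uIcc_of_le zero_le_one]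
      intro x hx
      rw [hom, max_eq_right hx.1, tang_self, min_eq_right (hf.circle' hx)]
    have e1 : sqI f 0 = 2 / 3 := by
      rw [sqI, intervalIntegral.integral_congr (g := fun x => 1 - x ^ 2) fun x hx => by
        simp only [e hx]
        rw [uIcc_of_le zero_le_one] at hx
        rw [sq_sqrt (by nlinarith [hx.1, hx.2])] ]
      rw [intervalIntegral.integral_sub intervalIntegrable_const
        (intervalIntegral.intervalIntegrable_pow 2), integral_pow]
      norm_num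
    have e2 : cubW f 0 = 211 / 250 + 13 / 125 := by
      have hsplit : ∀ x, wt4 x * √(1 - x ^ 2) ^ 3 = 211 / 250 * (16 / (3 * π)) * √(1 - x ^ 2) ^ 3
          + 13 / 125 * (32 / π) * (x ^ 2 * √(1 - x ^ 2) ^ 3) := fun x => by unfold wt4; ring
      rw [cubW, intervalIntegral.integral_congr
        (g := fun x => wt4 x * √(1 - x ^ 2) ^ 3) fun x hx => by simp only [e hx] ]
      simp only [hsplit]
      rw [integral_add (Continuous.intervalIntegrable (by fun_prop) _ _)
        (Continuous.intervalIntegrable (by fun_prop) _ _), intervalIntegral.integral_const_mul,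
        intervalIntegral.integral_const_mul, cube_circle.1, cube_circle.2]
      field_simp
    rw [phi4, e1, e2]
    norm_num
  set bn : ℕ → ℝ := fun n => 1 - 1 / ((n : ℝ) + 2) with hbn
  have hb : ∀ n, 0 ≤ bn n ∧ bn n < 1 := by
    intro n
    have h2 : (1 : ℝ) / ((n : ℝ) + 2) ≤ 1 := by
      rw [div_le_one (by positivity)]
      linarith [(Nat.cast_nonneg n : (0 : ℝ) ≤ n)]
    have h3 : (0 : ℝ) < 1 / ((n : ℝ) + 2) := by positivity
    constructor <;> simp only [hbn] <;> linarith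
  have hlim : Tendsto bn atTop (𝓝 1) := by
    have := ((tendsto_natCast_atTop_atTop (R := ℝ)).atTop_add (tendsto_const_nhds (x := (2 : ℝ)))
      ).inv_tendsto_atTop
    simpa [hbn, one_div] using this.const_sub 1
  have hpt : ∀ x, 0 ≤ x → x < 1 → ∀ᶠ n in atTop, hom f (bn n) x = f x := by
    intro x hx0 hx1
    have hδ : Tendsto (fun n => √(1 - bn n ^ 2)) atTop (𝓝 0) := by
      simpa using ((hlim.pow 2).const_sub 1).sqrt
    filter_upwards [hlim.eventually (eventually_gt_nhds hx1),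
      hδ.eventually (eventually_lt_nhds (show (0 : ℝ) < (1 - x) / 2 by linarith))] with n hn hn'
    rw [hom, max_eq_left hn.le, min_eq_left]
    rw [tang, le_div_iff₀ (sqrt_pos_of_lt (hb n).1 (hb n).2)]
    nlinarith [hf.le_max' ⟨hx0, hx1.le⟩, hf.nonneg ⟨hx0, hx1.le⟩, sqrt_nonneg (1 - bn n ^ 2),
      (hb n).2]
  have l1 : Tendsto (fun n => sqI f (bn n)) atTop (𝓝 (∫ x in (0 : ℝ)..1, f x ^ 2)) := by
    refine tendsto_integral_filter_of_dominated_convergence (fun _ => 2 ^ 2)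
      (Eventually.of_forall fun n => (hf.hom_meas _).pow 2) ?_ intervalIntegrable_const ?_
    · refine Eventually.of_forall fun n => Eventually.of_forall fun x hx => ?_
      rw [uIoc_of_le zero_le_one] at hx
      obtain ⟨q1, q2⟩ := hf.hom_mem (hb n).1 (hb n).2 (Ioc_subset_Icc_self hx)
      rw [Real.norm_eq_abs, abs_of_nonneg (sq_nonneg _)]
      exact pow_le_pow_left₀ q1 q2 2
    · filter_upwards [Measure.ae_ne volume (1 : ℝ)] with x hx hx'
      rw [uIoc_of_le zero_le_one] at hx'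
      exact tendsto_const_nhds.congr'
        ((hpt x hx'.1.le (lt_of_le_of_ne hx'.2 hx)).mono fun n hn => by simp only [hn])
  have l2 : Tendsto (fun n => cubW f (bn n)) atTop (𝓝 (∫ x in (0 : ℝ)..1, wt4 x * f x ^ 3)) := by
    refine tendsto_integral_filter_of_dominated_convergence (fun _ => 3 * 2 ^ 3)
      (Eventually.of_forall fun n => hf.cub_meas _) ?_ intervalIntegrable_const ?_
    · refine Eventually.of_forall fun n => Eventually.of_forall fun x hx => ?_
      rw [uIoc_of_le zero_le_one] at hx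
      obtain ⟨q1, q2⟩ := hf.hom_mem (hb n).1 (hb n).2 (Ioc_subset_Icc_self hx)
      obtain ⟨q3, q4⟩ := wt4_bound (Ioc_subset_Icc_self hx)
      rw [Real.norm_eq_abs, abs_of_nonneg (mul_nonneg q3 (pow_nonneg q1 3))]
      exact mul_le_mul q4 (pow_le_pow_left₀ q1 q2 3) (pow_nonneg q1 3) (by norm_num)
    · filter_upwards [Measure.ae_ne volume (1 : ℝ)] with x hx hx'
      rw [uIoc_of_le zero_le_one] at hx'
      exact tendsto_const_nhds.congr'
        ((hpt x hx'.1.le (lt_of_le_of_ne hx'.2 hx)).mono fun n hn => by simp only [hn])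
  have hcont : Continuous phi4 := by
    unfold phi4
    exact (((Real.continuous_rpow_const (by norm_num)).comp
      (continuous_const.mul continuous_id)).const_mul _).add
      (((Real.continuous_rpow_const (by norm_num)).comp
        (continuous_const.mul continuous_id)).const_mul _)
  exact ge_of_tendsto' (((hcont.tendsto _).comp l1).sub l2) fun n =>
    h00 ▸ hf.H_mono hkey (hb n).1 (hb n).2

end Prof4

/-- The one-dimensional lemma for `n = 4`. -/
theorem oneDimFour_of_key (hkey : KeyFour) : OneDimFour (211 / 250) (13 / 125) := by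
  intro f hc he h2 hcirc
  have hf : Prof4 f := ⟨hc, he, h2, hcirc⟩
  have i2 : IntervalIntegrable (fun x => f x ^ 2) volume 0 1 :=
    Prof.integrable_of_bound (C := 2 ^ 2) (hf.meas.pow 2) fun x hx => by
      rw [abs_of_nonneg (sq_nonneg _)]
      exact pow_le_pow_left₀ (hf.nonneg hx) (hf.le_max' hx) 2
  have i3 : IntervalIntegrable (fun x => f x ^ 3) volume 0 1 :=
    Prof.integrable_of_bound (C := 2 ^ 3) (hf.meas.pow 3) fun x hx => by
      rw [abs_of_nonneg (pow_nonneg (hf.nonneg hx) 3)]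
      exact pow_le_pow_left₀ (hf.nonneg hx) (hf.le_max' hx) 3
  have i4 : IntervalIntegrable (fun x => x ^ 2 * f x ^ 3) volume 0 1 :=
    i3.continuousOn_mul (by fun_prop)
  rw [integral_half (h := fun x => f x ^ 2) (fun x => by rw [he]) i2,
    integral_half (h := fun x => f x ^ 3) (fun x => by rw [he]) i3,
    integral_half (h := fun x => x ^ 2 * f x ^ 3) (fun x => by rw [he, neg_sq]) i4]
  have h := hf.half_ineq hkey
  have e : ∫ x in (0 : ℝ)..1, wt4 x * f x ^ 3 =
      211 / 250 * (16 / (3 * π)) * (∫ x in (0 : ℝ)..1, f x ^ 3) +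
        13 / 125 * (32 / π) * ∫ x in (0 : ℝ)..1, x ^ 2 * f x ^ 3 := by
    rw [← intervalIntegral.integral_const_mul, ← intervalIntegral.integral_const_mul,
      ← intervalIntegral.integral_add (i3.const_mul _) (i4.const_mul _)]
    refine intervalIntegral.integral_congr fun x _ => ?_
    simp only [wt4]; ring
  rw [e, phi4] at h
  rw [show (2 * ∫ x in (0 : ℝ)..1, f x ^ 2) / (4 / 3) = 3 / 2 * ∫ x in (0 : ℝ)..1, f x ^ 2 by ring]
  refine le_of_eq_of_le ?_ (sub_nonneg.1 h)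
  field_simp
  ring

/-- Petty's inequality in dimension four, from `KeyFour`. -/
theorem petty_four_of_key (hkey : KeyFour) (K : Set (E 4))
    (hc : Convex ℝ K) (hk : IsCompact K) (hi : (interior K).Nonempty) :
    (∀ u : E 4, ‖u‖ = 1 →
      IsGreatest ((fun y => inner ℝ y u) '' ProjectionBody K) (shadow K u)) ∧
    1024 / 81 * (volume K).toReal ^ 3 ≤ (volume (ProjectionBody K)).toReal ∧
    ((volume (ProjectionBody K)).toReal = 1024 / 81 * (volume K).toReal ^ 3 ↔ IsEllipsoid4 K) :=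
  petty_four (by norm_num) (by norm_num) (oneDimFour_of_key hkey) K hc hk hi

end Vale.Agent.P237.Four
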