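import Vale.Agent.P237.Four.CertPoly
import Vale.Agent.P237.Four.OneDim

/-!
# P237, `n = 4`: the certificate for `KeyFour`

On every leaf box a polynomial lower bound `H` of `3/2 ∫F²` lies in `[h1, h2] / 1000`; there
`√h` is bounded below by a chord and `h^(5/4)` by a tangent, and the resulting polynomial
inequality is tested on Bernstein coefficients by the kernel.
-/

namespace Vale.Agent.P237.Four.Cert

open OneDimCert (chord_sq chordOk)
open Real

instance : Add Expr := ⟨Expr.add⟩

instance : Mul Expr := ⟨Expr.mul⟩

lemma val_add (s r : ℝ) (a b : Expr) : (a + b).val s r = a.val s r + b.val s r := rfl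

open Vale.Agent.P237.Four.Cert.Expr (cst varS varR)

/-- `1 - s²`. -/
def eB : Expr := cst 1 + cst (-1) * (varS * varS)

/-- The end value of the tangent. -/
def eY : Expr := varS + eB * varR

/-- Three times the nonnegative coefficient of `b`. -/
def eF3 : Expr :=
  cst 3 * (cst 1 + cst (-1) * (varS * varR)) * (eY * eY) +
    cst 3 * (varS * varS * varS) * varR +
    cst 3 * eB * (varS * varS) * (varR * varR) +
    eB * eB * varS * (varR * varR * varR)

/-- Scaled lower bound for `3/2 ∫F²`. -/
def eH (al be : ℤ) (ke qn : ℕ) : Expr :=
  cst (10 * qn) * (cst al + cst be * (varS * varS)) * eF3 +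
    cst (-5000) * (cst ((qn : ℤ) * qn) + cst 10000 * eB) *
      (cst 2 + varS * varS) +
    cst (2000000 * qn) +
    cst ((qn : ℤ) * 30000 * ke) * (cst 1 + cst (-1) * (eY * eY)) +
    cst (-((qn : ℤ) * (ke : ℤ) ^ 3))

/-- `60 * 75 * 10^6 * keyQ`. -/
def eQ : Expr :=
  (cst 107461456 + cst 79450176 * eB) *
      (cst 30 * (varS * varS) + cst 40 * eB * varS * varR +
        cst 15 * (eB * eB) * (varR * varR)) +
    cst (-79450176) *
      (cst 40 * eB * (varS * varS * varS) * varR +
        cst 60 * (eB * eB) * (varS * varS) * (varR * varR) +
        cst 24 * (eB * eB * eB) * varS * (varR * varR * varR)) +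
    cst 79450176 *
      (cst 15 * eB * (varS * varS * varS * varS) * (varR * varR) +
        cst 24 * (eB * eB) * (varS * varS * varS) * (varR * varR * varR) +
        cst 10 * (eB * eB * eB) * (varS * varS) * (varR * varR * varR * varR))

/-- `h - h1` in the scale of `eH`. -/
def eLo (al be : ℤ) (ke qn h1 : ℕ) : Expr := eH al be ke qn + cst (-(h1 * (2000 * qn)))

/-- `h2 - h` in the scale of `eH`. -/
def eHi (al be : ℤ) (ke qn h2 : ℕ) : Expr :=
  cst (h2 * (2000 * qn)) + cst (-1) * eH al be ke qn

/-- The inequality to be tested. -/
def eT (al be : ℤ) (ke qn h1 h2 c1 c2 g : ℕ) : Expr :=
  cst 1500000 * (cst 3 * varS + cst 2 * eB * varR) *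
      (cst (633 * 20000000) * (cst c1 * eHi al be ke qn h2 + cst c2 * eLo al be ke qn h1) +
        cst (117 * ((h2 : ℤ) - h1)) *
          (cst (2500000 * g) * eH al be ke qn + cst (-((qn : ℤ) * (g : ℤ) ^ 5)))) +
    cst (-(4000000000000000 * ((h2 : ℤ) - h1) * qn)) * eQ

/-- Partition trees with the parameters at the leaves. -/
inductive Tree where
  | leaf (al be : ℤ) (ke qn h1 h2 c1 c2 g : ℕ)
  | outT
  | outY
  | sS (l r : Tree)
  | sR (l r : Tree)

/-- The checker; a box is `[A / 1024, B / 1024] × [A' / 1024, B' / 1024]`. -/
def check : Tree → ℤ → ℤ → ℤ → ℤ → Bool
  | .leaf al be ke qn h1 h2 c1 c2 g, A, B, A', B' =>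
      A < B && A' < B' && 0 ≤ A && 0 < qn && ke ≤ 100 && h1 < h2 && c1 ≤ c2 &&
      c1 ^ 2 ≤ 10000000 * h1 && c2 ^ 2 ≤ 10000000 * h2 &&
      chordOk al be A && chordOk al be B &&
      bern A B A' B' 1024 (eLo al be ke qn h1).poly &&
      bern A B A' B' 1024 (eHi al be ke qn h2).poly &&
      bern A B A' B' 1024 (eT al be ke qn h1 h2 c1 c2 g).poly
  | .outT, A, _, A', _ => 1048576 < A * A' && 0 ≤ A && 0 ≤ A'
  | .outY, A, B, A', _ => 2 * 1073741824 < A * 1048576 + (1048576 - A ^ 2) * A' &&
      2 * 1073741824 < B * 1048576 + (1048576 - B ^ 2) * A' && 0 ≤ A' && A ≤ B &&
      0 ≤ A && B ≤ 1024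
  | .sS l r, A, B, A', B' => check l A ((A + B) / 2) A' B' && check r ((A + B) / 2) B A' B'
  | .sR l r, A, B, A', B' => check l A B A' ((A' + B') / 2) && check r A B ((A' + B') / 2) B'

lemma nS {l r : Tree} {A B A' B' : ℤ} (m : ℤ) (hm : (A + B) / 2 = m)
    (hl : check l A m A' B' = true) (hr : check r m B A' B' = true) :
    check (.sS l r) A B A' B' = true := by simp [check, hm, hl, hr]

lemma nR {l r : Tree} {A B A' B' : ℤ} (m : ℤ) (hm : (A' + B') / 2 = m)
    (hl : check l A B A' m = true) (hr : check r A B m B' = true) :
    check (.sR l r) A B A' B' = true := by simp [check, hm, hl, hr]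

lemma ok0 : check
    (.leaf 100000 (-50816) 93 99 970 1025 98488 101242 1001)
    0 256 0 512 = true := by decide +kernel

lemma ok1 : check
    (.sR (.leaf 100000 (-50240) 73 100 987 1149 99347 107191 1017)
      (.leaf 100000 (-50240) 36 100 1007 1591 100349 126134 1069))
    0 128 512 1024 = true := by decide +kernel

lemma ok2 : check
    (.leaf 100012 (-51008) 61 98 981 1185 99045 108857 1022)
    128 256 512 768 = true := by decide +kernel

lemma ok3 : check
    (.sR (.leaf 100006 (-50637) 32 99 1128 1392 106207 117983 1060)
      (.leaf 100006 (-50637) 0 99 1310 1776 114455 133266 1115))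
    128 192 768 1024 = true := by decide +kernel

lemma ok4 : check
    (.leaf 100028 (-51274) 0 98 1059 1816 102907 134759 1095)
    192 256 768 1024 = true := by decide +kernel

lemma ok5 : check
    (.leaf 100121 (-52762) 84 95 972 1022 98590 101094 1001)
    256 384 0 512 = true := by decide +kernel

lemma ok6 : check
    (.sR (.leaf 100544 (-55772) 84 90 985 1005 99247 100249 1000)
      (.leaf 100544 (-55772) 67 90 974 1045 98691 102225 1004))
    384 512 0 512 = true := by decide +kernel

lemma ok7 : check
    (.sR (.leaf 100082 (-52139) 60 96 1023 1102 101143 104976 1016)
      (.leaf 100082 (-52139) 40 96 1066 1222 103247 110544 1035))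
    256 320 512 768 = true := by decide +kernel

lemma ok8 : check
    (.sR (.leaf 100193 (-53272) 54 94 1024 1107 101192 105214 1017)
      (.leaf 100193 (-53272) 31 94 1068 1236 103344 111175 1037))
    320 384 512 768 = true := by decide +kernel

lemma ok9 : check
    (.leaf 100121 (-52762) 0 95 1125 1810 106066 134536 1102)
    256 384 768 1024 = true := by decide +kernel

lemma ok10 : check
    (.sR (.leaf 100403 (-54765) 48 91 1024 1110 101192 105356 1017)
      (.leaf 100403 (-54765) 20 91 1066 1251 103247 111848 1038))
    384 448 512 768 = true := by decide +kernel

lemma ok11 : check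
    (.leaf 100763 (-56645) 29 88 978 1229 98893 110860 1026)
    448 512 512 768 = true := by decide +kernel

lemma ok12 : check
    (.leaf 100544 (-55772) 0 90 1203 1748 109681 132211 1097)
    384 512 768 1024 = true := by decide +kernel

lemma ok13 : check
    (.sR (.leaf 100000 (-50816) 0 99 1308 3598 114367 189683 1253)
      (.leaf 100000 (-50816) 0 99 2782 6294 166793 250878 1446))
    0 256 1024 2048 = true := by decide +kernel

lemma ok14 : check
    (.leaf 100231 (-54518) 0 93 1269 4813 112649 219385 1271)
    256 512 1024 2048 = true := by decide +kernel

lemma ok15 : check
    (.leaf 101784 (-60729) 76 83 981 1005 99045 100249 1000)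
    512 640 0 256 = true := by decide +kernel

lemma ok16 : check
    (.leaf 101371 (-59076) 60 85 981 1038 99045 101882 1004)
    512 576 256 512 = true := by decide +kernel

lemma ok17 : check
    (.sR (.leaf 102362 (-62208) 61 80 995 1015 99749 100747 1002)
      (.leaf 102362 (-62208) 48 80 1002 1042 100099 102078 1006))
    576 640 256 512 = true := by decide +kernel

lemma ok18 : check
    (.leaf 105150 (-69347) 66 73 976 1004 98792 100199 1000)
    640 768 0 256 = true := by decide +kernel

lemma ok19 : check
    (.leaf 103985 (-66365) 55 75 994 1014 99699 100697 1001)
    640 704 256 384 = true := by decide +kernel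

lemma ok20 : check
    (.sR (.leaf 103506 (-65137) 47 77 1008 1024 100399 101192 1004)
      (.leaf 103506 (-65137) 40 77 1017 1039 100846 101931 1007))
    640 672 384 512 = true := by decide +kernel

lemma ok21 : check
    (.sR (.leaf 104539 (-67537) 45 74 1008 1023 100399 101143 1004)
      (.leaf 104539 (-67537) 37 74 1016 1037 100796 101833 1006))
    672 704 384 512 = true := by decide +kernel

lemma ok22 : check
    (.leaf 106682 (-72070) 49 70 994 1013 99699 100647 1001)
    704 768 256 384 = true := by decide +kernel

lemma ok23 : check
    (.sR (.leaf 105874 (-70361) 42 71 1007 1021 100349 101044 1003)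
      (.leaf 105874 (-70361) 34 71 1014 1034 100697 101685 1006))
    704 736 384 512 = true := by decide +kernel

lemma ok24 : check
    (.leaf 107603 (-73707) 35 68 1002 1030 100099 101488 1004)
    736 768 384 512 = true := by decide +kernel

lemma ok25 : check
    (.sS (.leaf 101194 (-58368) 37 86 1026 1107 101291 105214 1016)
      (.leaf 101582 (-59744) 34 84 1025 1105 101242 105118 1016))
    512 576 512 640 = true := by decide +kernel

lemma ok26 : check
    (.leaf 101371 (-59076) 0 85 1072 1270 103537 112694 1040)
    512 576 640 768 = true := by decide +kernel

lemma ok27 : check
    (.sS (.leaf 102075 (-61302) 30 82 1023 1103 101143 105023 1015)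
      (.leaf 102697 (-63068) 27 79 1022 1099 101094 104833 1015))
    576 640 512 640 = true := by decide +kernel

lemma ok28 : check
    (.leaf 102362 (-62208) 0 80 1083 1248 104067 111713 1038)
    576 640 640 768 = true := by decide +kernel

lemma ok29 : check
    (.leaf 101784 (-60729) 0 83 1165 1605 107935 126688 1080)
    512 640 768 1024 = true := by decide +kernel

lemma ok30 : check
    (.sR (.leaf 103506 (-65137) 30 77 1030 1062 101488 103053 1011)
      (.leaf 103506 (-65137) 14 77 1048 1100 102371 104880 1018))
    640 672 512 640 = true := by decide +kernel

lemma ok31 : check
    (.leaf 104539 (-67537) 27 74 1027 1058 101341 102859 1010)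
    672 704 512 576 = true := by decide +kernel

lemma ok32 : check
    (.sR (.leaf 104259 (-66886) 16 75 1050 1074 102469 103633 1015)
      (.leaf 104259 (-66886) 0 75 1065 1099 103198 104833 1020))
    672 688 576 640 = true := by decide +kernel

lemma ok33 : check
    (.sR (.leaf 104840 (-68173) 14 73 1049 1072 102420 103537 1015)
      (.leaf 104840 (-68173) 0 73 1064 1096 103150 104690 1019))
    688 704 576 640 = true := by decide +kernel

lemma ok34 : check
    (.leaf 103985 (-66365) 0 75 1076 1217 103730 110317 1034)
    640 704 640 768 = true := by decide +kernel

lemma ok35 : check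
    (.leaf 105874 (-70361) 24 71 1025 1054 101242 102664 1010)
    704 736 512 576 = true := by decide +kernel

lemma ok36 : check
    (.sR (.leaf 105508 (-69586) 11 72 1046 1070 102274 103440 1014)
      (.leaf 105508 (-69586) 0 72 1062 1093 103053 104546 1019))
    704 720 576 640 = true := by decide +kernel

lemma ok37 : check
    (.leaf 106265 (-71118) 0 70 1040 1091 101980 104450 1016)
    720 736 576 640 = true := by decide +kernel

lemma ok38 : check
    (.sR (.leaf 107603 (-73707) 20 68 1021 1051 101044 102518 1009)
      (.leaf 107603 (-73707) 0 68 1037 1087 101833 104259 1015))
    736 768 512 640 = true := by decide +kernel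

lemma ok39 : check
    (.leaf 106682 (-72070) 0 70 1061 1179 103004 108581 1028)
    704 768 640 768 = true := by decide +kernel

lemma ok40 : check
    (.leaf 105150 (-69347) 0 73 1096 1417 104690 119037 1054)
    640 768 768 1024 = true := by decide +kernel

lemma ok41 : check
    (.leaf 115244 (-87292) 52 58 970 998 98488 99899 998)
    768 896 0 256 = true := by decide +kernel

lemma ok42 : check
    (.sR (.leaf 111342 (-80354) 43 62 993 1009 99649 100448 1001)
      (.leaf 111342 (-80354) 31 62 998 1026 99899 101291 1003))
    768 832 256 512 = true := by decide +kernel

lemma ok43 : check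
    (.leaf 120162 (-93715) 31 54 985 1015 99247 100747 1001)
    832 896 256 512 = true := by decide +kernel

lemma ok44 : check
    (.leaf 140424 (-120179) 37 42 982 997 99095 99849 998)
    896 960 0 256 = true := by decide +kernel

lemma ok45 : check
    (.leaf 182265 (-167785) 28 30 990 996 99498 99799 999)
    960 992 0 128 = true := by decide +kernel

lemma ok46 : check
    (.leaf 246063 (-235766) 21 22 991 999 99548 99949 999)
    992 1008 0 64 = true := by decide +kernel

lemma ok47 : check
    (.sS (.leaf 339709 (-332408) 15 15 995 999 99749 99949 999)
      (.leaf 801530 (-801531) 9 9 925 997 96176 99849 990))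
    1008 1024 0 32 = true := by decide +kernel

lemma ok48 : check
    (.sS (.leaf 339709 (-332408) 15 15 995 999 99749 99949 999)
      (.leaf 801530 (-801531) 8 9 925 997 96176 99849 990))
    1008 1024 32 64 = true := by decide +kernel

lemma ok49 : check
    (.leaf 246063 (-235766) 19 22 991 999 99548 99949 999)
    992 1008 64 128 = true := by decide +kernel

lemma ok50 : check
    (.sS (.leaf 339709 (-332408) 14 15 995 999 99749 99949 999)
      (.leaf 801530 (-801531) 8 9 925 997 96176 99849 990))
    1008 1024 64 96 = true := by decide +kernel

lemma ok51 : check
    (.sS (.leaf 339709 (-332408) 14 15 995 999 99749 99949 999)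
      (.leaf 801530 (-801531) 8 9 925 997 96176 99849 990))
    1008 1024 96 128 = true := by decide +kernel

lemma ok52 : check
    (.leaf 182265 (-167785) 24 30 990 997 99498 99849 999)
    960 992 128 256 = true := by decide +kernel

lemma ok53 : check
    (.leaf 246063 (-235766) 18 22 991 999 99548 99949 999)
    992 1008 128 192 = true := by decide +kernel

lemma ok54 : check
    (.sS (.leaf 339709 (-332408) 13 15 995 999 99749 99949 999)
      (.leaf 801530 (-801531) 7 9 925 997 96176 99849 990))
    1008 1024 128 160 = true := by decide +kernel

lemma ok55 : check
    (.sS (.leaf 339709 (-332408) 12 15 995 999 99749 99949 999)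
      (.leaf 801530 (-801531) 7 9 925 997 96176 99849 990))
    1008 1024 160 192 = true := by decide +kernel

lemma ok56 : check
    (.leaf 246063 (-235766) 16 22 991 999 99548 99949 999)
    992 1008 192 256 = true := by decide +kernel

lemma ok57 : check
    (.sS (.leaf 339709 (-332408) 12 15 995 999 99749 99949 999)
      (.leaf 801530 (-801531) 7 9 925 997 96176 99849 990))
    1008 1024 192 224 = true := by decide +kernel

lemma ok58 : check
    (.sS (.leaf 339709 (-332408) 11 15 995 999 99749 99949 999)
      (.leaf 801530 (-801531) 6 9 925 997 96176 99849 990))
    1008 1024 224 256 = true := by decide +kernel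

lemma ok59 : check
    (.leaf 140424 (-120179) 23 42 983 1006 99146 100299 999)
    896 960 256 512 = true := by decide +kernel

lemma ok60 : check
    (.leaf 182265 (-167785) 19 30 991 998 99548 99899 999)
    960 992 256 384 = true := by decide +kernel

lemma ok61 : check
    (.leaf 246063 (-235766) 14 22 991 1000 99548 100000 999)
    992 1008 256 320 = true := by decide +kernel

lemma ok62 : check
    (.sS (.leaf 339709 (-332408) 11 15 995 999 99749 99949 999)
      (.leaf 801530 (-801531) 6 9 925 997 96176 99849 990))
    1008 1024 256 288 = true := by decide +kernel

lemma ok63 : check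
    (.sS (.leaf 339709 (-332408) 10 15 995 999 99749 99949 999)
      (.leaf 801530 (-801531) 6 9 925 997 96176 99849 990))
    1008 1024 288 320 = true := by decide +kernel

lemma ok64 : check
    (.leaf 246063 (-235766) 12 22 992 1000 99599 100000 999)
    992 1008 320 384 = true := by decide +kernel

lemma ok65 : check
    (.sS (.leaf 339709 (-332408) 9 15 995 999 99749 99949 999)
      (.leaf 801530 (-801531) 5 9 925 997 96176 99849 990))
    1008 1024 320 352 = true := by decide +kernel

lemma ok66 : check
    (.sS (.leaf 339709 (-332408) 8 15 995 999 99749 99949 999)
      (.leaf 801530 (-801531) 5 9 925 997 96176 99849 990))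
    1008 1024 352 384 = true := by decide +kernel

lemma ok67 : check
    (.leaf 182265 (-167785) 12 30 992 1001 99599 100049 999)
    960 992 384 512 = true := by decide +kernel

lemma ok68 : check
    (.leaf 246063 (-235766) 10 22 992 1000 99599 100000 999)
    992 1008 384 448 = true := by decide +kernel

lemma ok69 : check
    (.sS (.leaf 339709 (-332408) 7 15 995 999 99749 99949 999)
      (.leaf 801530 (-801531) 4 9 925 997 96176 99849 990))
    1008 1024 384 416 = true := by decide +kernel

lemma ok70 : check
    (.sS (.leaf 339709 (-332408) 6 15 995 999 99749 99949 999)
      (.leaf 801530 (-801531) 4 9 925 997 96176 99849 990))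
    1008 1024 416 448 = true := by decide +kernel

lemma ok71 : check
    (.leaf 246063 (-235766) 6 22 992 1001 99599 100049 999)
    992 1008 448 512 = true := by decide +kernel

lemma ok72 : check
    (.sS (.leaf 339709 (-332408) 5 15 995 999 99749 99949 999)
      (.leaf 801530 (-801531) 3 9 925 997 96176 99849 990))
    1008 1024 448 480 = true := by decide +kernel

lemma ok73 : check
    (.sS (.leaf 339709 (-332408) 3 15 995 999 99749 99949 999)
      (.leaf 801530 (-801531) 2 9 925 997 96176 99849 990))
    1008 1024 480 512 = true := by decide +kernel

lemma ok74 : check
    (.sR (.leaf 109895 (-77783) 17 64 1018 1045 100895 102225 1008)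
      (.leaf 109895 (-77783) 0 64 1034 1078 101685 103826 1013))
    768 800 512 640 = true := by decide +kernel

lemma ok75 : check
    (.sR (.leaf 112972 (-82824) 14 60 1015 1040 100747 101980 1007)
      (.leaf 112972 (-82824) 0 60 1029 1067 101439 103295 1012))
    800 832 512 640 = true := by decide +kernel

lemma ok76 : check
    (.leaf 111342 (-80354) 0 62 1043 1136 102127 106583 1021)
    768 832 640 768 = true := by decide +kernel

lemma ok77 : check
    (.leaf 120162 (-93715) 0 54 997 1095 99849 104642 1010)
    832 896 512 768 = true := by decide +kernel

lemma ok78 : check
    (.leaf 115244 (-87292) 0 58 1020 1223 100995 110589 1025)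
    768 896 768 1024 = true := by decide +kernel

lemma ok79 : check
    (.leaf 140424 (-120179) 0 42 989 1049 99448 102420 1003)
    896 960 512 768 = true := by decide +kernel

lemma ok80 : check
    (.leaf 182265 (-167785) 0 30 993 1009 99649 100448 1000)
    960 992 512 640 = true := by decide +kernel

lemma ok81 : check
    (.leaf 246063 (-235766) 0 22 992 1003 99599 100149 999)
    992 1008 512 576 = true := by decide +kernel

lemma ok82 : check
    (.sS (.leaf 339709 (-332408) 0 15 995 999 99749 99949 999)
      (.leaf 801530 (-801531) 0 9 925 998 96176 99899 990))
    1008 1024 512 544 = true := by decide +kernel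

lemma ok83 : check
    (.sS (.leaf 339709 (-332408) 0 15 995 1000 99749 100000 999)
      (.leaf 801530 (-801531) 0 9 925 998 96176 99899 990))
    1008 1024 544 576 = true := by decide +kernel

lemma ok84 : check
    (.leaf 246063 (-235766) 0 22 992 1004 99599 100199 999)
    992 1008 576 640 = true := by decide +kernel

lemma ok85 : check
    (.sS (.leaf 339709 (-332408) 0 15 995 1000 99749 100000 999)
      (.leaf 801530 (-801531) 0 9 925 998 96176 99899 990))
    1008 1024 576 608 = true := by decide +kernel

lemma ok86 : check
    (.sS (.leaf 339709 (-332408) 0 15 995 1000 99749 100000 999)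
      (.leaf 801530 (-801531) 0 9 925 998 96176 99899 990))
    1008 1024 608 640 = true := by decide +kernel

lemma ok87 : check
    (.leaf 182265 (-167785) 0 30 995 1015 99749 100747 1001)
    960 992 640 768 = true := by decide +kernel

lemma ok88 : check
    (.leaf 246063 (-235766) 0 22 993 1005 99649 100249 1000)
    992 1008 640 704 = true := by decide +kernel

lemma ok89 : check
    (.sS (.leaf 339709 (-332408) 0 15 995 1000 99749 100000 999)
      (.leaf 801530 (-801531) 0 9 925 998 96176 99899 990))
    1008 1024 640 672 = true := by decide +kernel

lemma ok90 : check
    (.sS (.leaf 339709 (-332408) 0 15 996 1000 99799 100000 999)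
      (.leaf 801530 (-801531) 0 9 925 998 96176 99899 990))
    1008 1024 672 704 = true := by decide +kernel

lemma ok91 : check
    (.leaf 246063 (-235766) 0 22 993 1006 99649 100299 1000)
    992 1008 704 768 = true := by decide +kernel

lemma ok92 : check
    (.sS (.leaf 339709 (-332408) 0 15 996 1001 99799 100049 1000)
      (.leaf 801530 (-801531) 0 9 925 998 96176 99899 990))
    1008 1024 704 736 = true := by decide +kernel

lemma ok93 : check
    (.sS (.leaf 339709 (-332408) 0 15 996 1001 99799 100049 1000)
      (.leaf 801530 (-801531) 0 9 925 998 96176 99899 990))
    1008 1024 736 768 = true := by decide +kernel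

lemma ok94 : check
    (.leaf 140424 (-120179) 0 42 1002 1071 100099 103489 1008)
    896 960 768 1024 = true := by decide +kernel

lemma ok95 : check
    (.leaf 182265 (-167785) 0 30 997 1019 99849 100945 1002)
    960 992 768 896 = true := by decide +kernel

lemma ok96 : check
    (.leaf 246063 (-235766) 0 22 993 1007 99649 100349 1000)
    992 1008 768 832 = true := by decide +kernel

lemma ok97 : check
    (.sS (.leaf 339709 (-332408) 0 15 996 1001 99799 100049 1000)
      (.leaf 801530 (-801531) 0 9 925 998 96176 99899 990))
    1008 1024 768 800 = true := by decide +kernel

lemma ok98 : check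
    (.sS (.leaf 339709 (-332408) 0 15 996 1001 99799 100049 1000)
      (.leaf 801530 (-801531) 0 9 925 998 96176 99899 990))
    1008 1024 800 832 = true := by decide +kernel

lemma ok99 : check
    (.leaf 246063 (-235766) 0 22 994 1007 99699 100349 1000)
    992 1008 832 896 = true := by decide +kernel

lemma ok100 : check
    (.sS (.leaf 339709 (-332408) 0 15 996 1001 99799 100049 1000)
      (.leaf 801530 (-801531) 0 9 925 998 96176 99899 990))
    1008 1024 832 864 = true := by decide +kernel

lemma ok101 : check
    (.sS (.leaf 339709 (-332408) 0 15 996 1001 99799 100049 1000)
      (.leaf 801530 (-801531) 0 9 925 998 96176 99899 990))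
    1008 1024 864 896 = true := by decide +kernel

lemma ok102 : check
    (.leaf 182265 (-167785) 0 30 998 1021 99899 101044 1002)
    960 992 896 1024 = true := by decide +kernel

lemma ok103 : check
    (.leaf 246063 (-235766) 0 22 994 1008 99699 100399 1000)
    992 1008 896 960 = true := by decide +kernel

lemma ok104 : check
    (.sS (.leaf 339709 (-332408) 0 15 996 1001 99799 100049 1000)
      (.leaf 801530 (-801531) 0 9 925 998 96176 99899 990))
    1008 1024 896 928 = true := by decide +kernel

lemma ok105 : check
    (.sS (.leaf 339709 (-332408) 0 15 996 1001 99799 100049 1000)
      (.leaf 801530 (-801531) 0 9 925 998 96176 99899 990))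
    1008 1024 928 960 = true := by decide +kernel

lemma ok106 : check
    (.leaf 246063 (-235766) 0 22 994 1008 99699 100399 1000)
    992 1008 960 1024 = true := by decide +kernel

lemma ok107 : check
    (.sS (.leaf 339709 (-332408) 0 15 996 1001 99799 100049 1000)
      (.leaf 801530 (-801531) 0 9 925 998 96176 99899 990))
    1008 1024 960 992 = true := by decide +kernel

lemma ok108 : check
    (.sS (.leaf 339709 (-332408) 0 15 996 1001 99799 100049 1000)
      (.leaf 801530 (-801531) 0 9 925 998 96176 99899 990))
    1008 1024 992 1024 = true := by decide +kernel

lemma ok109 : check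
    (.leaf 101784 (-60729) 0 83 1318 2156 114804 146833 1140)
    512 640 1024 1536 = true := by decide +kernel

lemma ok110 : check
    (.leaf 105150 (-69347) 0 73 1175 1561 108397 124939 1077)
    640 768 1024 1280 = true := by decide +kernel

lemma ok111 : check
    (.leaf 103985 (-66365) 0 75 1358 1625 116533 127475 1104)
    640 704 1280 1536 = true := by decide +kernel

lemma ok112 : check
    (.leaf 105874 (-70361) 0 71 1305 1411 114236 118785 1079)
    704 736 1280 1408 = true := by decide +kernel

lemma ok113 : check
    (.leaf 107603 (-73707) 0 68 1246 1330 111624 115325 1065)
    736 768 1280 1344 = true := by decide +kernel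

lemma ok114 : check
    (.leaf 107113 (-72760) 0 69 1283 1330 113269 115325 1069)
    736 752 1344 1408 = true := by decide +kernel

lemma ok115 : check
    (.leaf 108124 (-74634) 0 67 1252 1294 111892 113754 1062)
    752 768 1344 1376 = true := by decide +kernel

lemma ok116 : check
    (.leaf 107846 (-74119) 0 67 1270 1293 112694 113710 1064)
    752 760 1376 1408 = true := by decide +kernel

lemma ok117 : check
    (.sR (.sS (.leaf 108235 (-74825) 0 67 1263 1276 112383 112960 1061)
      .outT)
      .outT)
    760 768 1376 1408 = true := by decide +kernel

lemma ok118 : check
    (.leaf 105508 (-69586) 0 72 1357 1411 116490 118785 1084)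
    704 720 1408 1472 = true := by decide +kernel

lemma ok119 : check
    (.leaf 106265 (-71118) 0 70 1320 1369 114891 117004 1077)
    720 736 1408 1440 = true := by decide +kernel

lemma ok120 : check
    (.leaf 106057 (-70696) 0 71 1340 1367 115758 116918 1079)
    720 728 1440 1472 = true := by decide +kernel

lemma ok121 : check
    (.sR (.leaf 106481 (-71535) 0 70 1321 1347 114934 116060 1075)
      .outT)
    728 736 1440 1472 = true := by decide +kernel

lemma ok122 : check
    (.leaf 105344 (-69239) 0 72 1380 1409 117473 118701 1087)
    704 712 1472 1504 = true := by decide +kernel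

lemma ok123 : check
    (.sR (.leaf 105678 (-69930) 0 71 1359 1387 116576 117770 1083)
      .outT)
    712 720 1472 1504 = true := by decide +kernel

lemma ok124 : check
    .outT
    704 720 1504 1536 = true := by decide +kernel

lemma ok125 : check
    .outT
    720 736 1472 1536 = true := by decide +kernel

lemma ok126 : check
    (.leaf 106859 (-72267) 0 69 1303 1329 114149 115282 1071)
    736 744 1408 1440 = true := by decide +kernel

lemma ok127 : check
    (.sR (.leaf 107376 (-73247) 0 68 1286 1310 113401 114455 1067)
      .outT)
    744 752 1408 1440 = true := by decide +kernel

lemma ok128 : check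
    .outT
    736 752 1440 1472 = true := by decide +kernel

lemma ok129 : check
    .outT
    752 768 1408 1472 = true := by decide +kernel

lemma ok130 : check
    .outT
    736 768 1472 1536 = true := by decide +kernel

lemma ok131 : check
    (.leaf 101371 (-59076) 0 85 1790 2284 133790 151129 1192)
    512 576 1536 1792 = true := by decide +kernel

lemma ok132 : check
    (.leaf 102362 (-62208) 0 80 1573 1902 125419 137913 1146)
    576 640 1536 1664 = true := by decide +kernel

lemma ok133 : check
    (.leaf 102075 (-61302) 0 82 1718 1910 131072 138202 1160)
    576 608 1664 1792 = true := by decide +kernel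

lemma ok134 : check
    (.sR (.leaf 102697 (-63068) 0 79 1588 1754 126015 132438 1137)
      .outT)
    608 640 1664 1792 = true := by decide +kernel

lemma ok135 : check
    (.leaf 101371 (-59076) 0 85 1843 2326 135757 152512 1200)
    512 576 1792 1920 = true := by decide +kernel

lemma ok136 : check
    (.leaf 101194 (-58368) 0 86 2039 2324 142793 152446 1215)
    512 544 1920 2048 = true := by decide +kernel

lemma ok137 : check
    (.sR (.sS (.leaf 101474 (-59363) 0 84 1958 2089 139928 144533 1193)
      .outT)
      .outT)
    544 576 1920 2048 = true := by decide +kernel

lemma ok138 : check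
    (.sR (.sS (.sR (.sS (.leaf 101941 (-60879) 0 82 1797 1903 134052 137949 1166)
      .outT)
      .outT)
      .outT)
      .outT)
    576 640 1792 2048 = true := by decide +kernel

lemma ok139 : check
    (.leaf 103506 (-65137) 0 77 1485 1620 121860 127279 1116)
    640 672 1536 1600 = true := by decide +kernel

lemma ok140 : check
    (.sS (.leaf 103287 (-64576) 0 77 1541 1616 124137 127121 1121)
      .outT)
    640 672 1600 1664 = true := by decide +kernel

lemma ok141 : check
    (.sR (.sS (.sR (.leaf 104259 (-66886) 0 75 1442 1505 120083 122678 1102)
      .outT)
      .outT)
      .outT)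
    672 704 1536 1664 = true := by decide +kernel

lemma ok142 : check
    .outT
    640 704 1664 1792 = true := by decide +kernel

lemma ok143 : check
    .outT
    704 768 1536 1792 = true := by decide +kernel

lemma ok144 : check
    .outT
    640 768 1792 2048 = true := by decide +kernel

lemma ok145 : check
    (.leaf 111342 (-80354) 0 62 1120 1266 105830 112516 1044)
    768 832 1024 1280 = true := by decide +kernel

lemma ok146 : check
    (.leaf 120162 (-93715) 0 54 1057 1154 102810 107424 1024)
    832 896 1024 1152 = true := by decide +kernel

lemma ok147 : check
    (.leaf 117261 (-89320) 0 56 1101 1155 104928 107470 1030)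
    832 864 1152 1216 = true := by decide +kernel

lemma ok148 : check
    (.leaf 116033 (-87460) 0 57 1125 1153 106066 107377 1033)
    832 848 1216 1248 = true := by decide +kernel

lemma ok149 : check
    (.sR (.leaf 115481 (-86624) 0 58 1136 1153 106583 107377 1034)
      .outT)
    832 840 1248 1280 = true := by decide +kernel

lemma ok150 : check
    (.sR (.leaf 116601 (-88288) 0 57 1126 1142 106113 106864 1032)
      .outT)
    840 848 1248 1280 = true := by decide +kernel

lemma ok151 : check
    (.sR (.leaf 118561 (-91146) 0 55 1105 1132 105118 106395 1028)
      .outT)
    848 864 1216 1280 = true := by decide +kernel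

lemma ok152 : check
    (.sR (.leaf 123405 (-97951) 0 51 1068 1113 103344 105498 1022)
      .outT)
    864 896 1152 1280 = true := by decide +kernel

lemma ok153 : check
    (.leaf 109254 (-76642) 0 65 1221 1262 110498 112338 1055)
    768 784 1280 1344 = true := by decide +kernel

lemma ok154 : check
    (.leaf 110577 (-78900) 0 63 1195 1231 109316 110950 1049)
    784 800 1280 1312 = true := by decide +kernel

lemma ok155 : check
    (.leaf 110203 (-78261) 0 64 1210 1230 110000 110905 1051)
    784 792 1312 1344 = true := by decide +kernel

lemma ok156 : check
    (.sR (.leaf 110964 (-79533) 0 63 1196 1216 109361 110272 1048)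
      .outT)
    792 800 1312 1344 = true := by decide +kernel

lemma ok157 : check
    (.leaf 108928 (-76063) 0 66 1239 1260 111310 112249 1057)
    768 776 1344 1360 = true := by decide +kernel

lemma ok158 : check
    (.sS (.leaf 108752 (-75750) 0 66 1247 1259 111669 112205 1058)
      .outT)
    768 776 1360 1376 = true := by decide +kernel

lemma ok159 : check
    (.sR (.leaf 109590 (-77215) 0 65 1224 1245 110634 111579 1054)
      .outT)
    776 784 1344 1376 = true := by decide +kernel

lemma ok160 : check
    .outT
    768 784 1376 1408 = true := by decide +kernel

lemma ok161 : check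
    .outT
    784 800 1344 1408 = true := by decide +kernel

lemma ok162 : check
    (.leaf 111675 (-80698) 0 62 1183 1202 108765 109635 1045)
    800 808 1280 1312 = true := by decide +kernel

lemma ok163 : check
    (.leaf 112536 (-82082) 0 61 1171 1189 108212 109041 1042)
    808 816 1280 1296 = true := by decide +kernel

lemma ok164 : check
    (.sS (.leaf 112310 (-81718) 0 61 1178 1188 108535 108995 1043)
      .outT)
    808 816 1296 1312 = true := by decide +kernel

lemma ok165 : check
    .outT
    800 816 1312 1344 = true := by decide +kernel

lemma ok166 : check
    (.sR (.sS (.sR (.leaf 113449 (-83519) 0 60 1159 1176 107656 108443 1039)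
      .outT)
      .outT)
      .outT)
    816 832 1280 1344 = true := by decide +kernel

lemma ok167 : check
    .outT
    800 832 1344 1408 = true := by decide +kernel

lemma ok168 : check
    .outT
    768 832 1408 1536 = true := by decide +kernel

lemma ok169 : check
    .outT
    832 896 1280 1536 = true := by decide +kernel

lemma ok170 : check
    (.leaf 140424 (-120179) 0 42 1008 1074 100399 103633 1009)
    896 960 1024 1152 = true := by decide +kernel

lemma ok171 : check
    (.sS (.sR (.leaf 132836 (-110269) 0 45 1040 1077 101980 103778 1014)
      .outT)
      .outT)
    896 960 1152 1280 = true := by decide +kernel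

lemma ok172 : check
    (.leaf 182265 (-167785) 0 30 998 1022 99899 101094 1002)
    960 992 1024 1152 = true := by decide +kernel

lemma ok173 : check
    (.leaf 246063 (-235766) 0 22 994 1008 99699 100399 1000)
    992 1008 1024 1088 = true := by decide +kernel

lemma ok174 : check
    (.sS (.leaf 339709 (-332408) 0 15 996 1001 99799 100049 1000)
      (.leaf 801530 (-801531) 0 9 925 998 96176 99899 990))
    1008 1024 1024 1056 = true := by decide +kernel

lemma ok175 : check
    .outT
    1008 1024 1056 1088 = true := by decide +kernel

lemma ok176 : check
    .outT
    992 1024 1088 1152 = true := by decide +kernel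

lemma ok177 : check
    .outT
    960 1024 1152 1280 = true := by decide +kernel

lemma ok178 : check
    .outT
    896 1024 1280 1536 = true := by decide +kernel

lemma ok179 : check
    .outT
    768 1024 1536 2048 = true := by decide +kernel

lemma ok180 : check
    (.leaf 100000 (-50816) 0 99 3617 14400 190184 379473 1678)
    0 256 2048 3072 = true := by decide +kernel

lemma ok181 : check
    (.sR (.sS .outY
      (.sR (.sS .outY
      (.sR (.leaf 100763 (-56645) 0 88 2223 2932 149097 171230 1265)
      .outY))
      .outY))
      .outY)
    256 512 2048 3072 = true := by decide +kernel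

lemma ok182 : check
    .outY
    0 512 3072 4096 = true := by decide +kernel

lemma ok183 : check
    (.sR (.sS (.sR (.sS (.sR (.sS (.sR (.sS (.sR (.leaf 101194 (-58368) 0 86 2019 2326 142091 152512 1214)
      .outT)
      .outT)
      .outT)
      .outT)
      .outT)
      .outT)
      .outT)
      .outT)
      .outT)
    512 1024 2048 4096 = true := by decide +kernel

/-- A partition tree passes the checker on the whole box. -/
theorem cert_ok : ∃ T, check T 0 1024 0 4096 = true :=
  ⟨_, (nR 2048 (by decide)
    (nS 512 (by decide)
      (nR 1024 (by decide)
        (nS 256 (by decide)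
          (nR 512 (by decide)
            ok0
            (nS 128 (by decide)
              ok1
              (nR 768 (by decide)
                ok2
                (nS 192 (by decide)
                  ok3
                  ok4))))
          (nR 512 (by decide)
            (nS 384 (by decide)
              ok5
              ok6)
            (nS 384 (by decide)
              (nR 768 (by decide)
                (nS 320 (by decide)
                  ok7
                  ok8)
                ok9)
              (nR 768 (by decide)
                (nS 448 (by decide)
                  ok10
                  ok11)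
                ok12))))
        (nS 256 (by decide)
          ok13
          ok14))
      (nR 1024 (by decide)
        (nS 768 (by decide)
          (nR 512 (by decide)
            (nS 640 (by decide)
              (nR 256 (by decide)
                ok15
                (nS 576 (by decide)
                  ok16
                  ok17))
              (nR 256 (by decide)
                ok18
                (nS 704 (by decide)
                  (nR 384 (by decide)
                    ok19
                    (nS 672 (by decide)
                      ok20
                      ok21))
                  (nR 384 (by decide)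
                    ok22
                    (nS 736 (by decide)
                      ok23
                      ok24)))))
            (nS 640 (by decide)
              (nR 768 (by decide)
                (nS 576 (by decide)
                  (nR 640 (by decide)
                    ok25
                    ok26)
                  (nR 640 (by decide)
                    ok27
                    ok28))
                ok29)
              (nR 768 (by decide)
                (nS 704 (by decide)
                  (nR 640 (by decide)
                    (nS 672 (by decide)
                      ok30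
                      (nR 576 (by decide)
                        ok31
                        (nS 688 (by decide)
                          ok32
                          ok33)))
                    ok34)
                  (nR 640 (by decide)
                    (nS 736 (by decide)
                      (nR 576 (by decide)
                        ok35
                        (nS 720 (by decide)
                          ok36
                          ok37))
                      ok38)
                    ok39))
                ok40)))
          (nR 512 (by decide)
            (nS 896 (by decide)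
              (nR 256 (by decide)
                ok41
                (nS 832 (by decide)
                  ok42
                  ok43))
              (nR 256 (by decide)
                (nS 960 (by decide)
                  ok44
                  (nR 128 (by decide)
                    (nS 992 (by decide)
                      ok45
                      (nR 64 (by decide)
                        (nS 1008 (by decide)
                          ok46
                          (nR 32 (by decide)
                            ok47
                            ok48))
                        (nS 1008 (by decide)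
                          ok49
                          (nR 96 (by decide)
                            ok50
                            ok51))))
                    (nS 992 (by decide)
                      ok52
                      (nR 192 (by decide)
                        (nS 1008 (by decide)
                          ok53
                          (nR 160 (by decide)
                            ok54
                            ok55))
                        (nS 1008 (by decide)
                          ok56
                          (nR 224 (by decide)
                            ok57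
                            ok58))))))
                (nS 960 (by decide)
                  ok59
                  (nR 384 (by decide)
                    (nS 992 (by decide)
                      ok60
                      (nR 320 (by decide)
                        (nS 1008 (by decide)
                          ok61
                          (nR 288 (by decide)
                            ok62
                            ok63))
                        (nS 1008 (by decide)
                          ok64
                          (nR 352 (by decide)
                            ok65
                            ok66))))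
                    (nS 992 (by decide)
                      ok67
                      (nR 448 (by decide)
                        (nS 1008 (by decide)
                          ok68
                          (nR 416 (by decide)
                            ok69
                            ok70))
                        (nS 1008 (by decide)
                          ok71
                          (nR 480 (by decide)
                            ok72
                            ok73))))))))
            (nS 896 (by decide)
              (nR 768 (by decide)
                (nS 832 (by decide)
                  (nR 640 (by decide)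
                    (nS 800 (by decide)
                      ok74
                      ok75)
                    ok76)
                  ok77)
                ok78)
              (nR 768 (by decide)
                (nS 960 (by decide)
                  ok79
                  (nR 640 (by decide)
                    (nS 992 (by decide)
                      ok80
                      (nR 576 (by decide)
                        (nS 1008 (by decide)
                          ok81
                          (nR 544 (by decide)
                            ok82
                            ok83))
                        (nS 1008 (by decide)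
                          ok84
                          (nR 608 (by decide)
                            ok85
                            ok86))))
                    (nS 992 (by decide)
                      ok87
                      (nR 704 (by decide)
                        (nS 1008 (by decide)
                          ok88
                          (nR 672 (by decide)
                            ok89
                            ok90))
                        (nS 1008 (by decide)
                          ok91
                          (nR 736 (by decide)
                            ok92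
                            ok93))))))
                (nS 960 (by decide)
                  ok94
                  (nR 896 (by decide)
                    (nS 992 (by decide)
                      ok95
                      (nR 832 (by decide)
                        (nS 1008 (by decide)
                          ok96
                          (nR 800 (by decide)
                            ok97
                            ok98))
                        (nS 1008 (by decide)
                          ok99
                          (nR 864 (by decide)
                            ok100
                            ok101))))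
                    (nS 992 (by decide)
                      ok102
                      (nR 960 (by decide)
                        (nS 1008 (by decide)
                          ok103
                          (nR 928 (by decide)
                            ok104
                            ok105))
                        (nS 1008 (by decide)
                          ok106
                          (nR 992 (by decide)
                            ok107
                            ok108))))))))))
        (nS 768 (by decide)
          (nR 1536 (by decide)
            (nS 640 (by decide)
              ok109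
              (nR 1280 (by decide)
                ok110
                (nS 704 (by decide)
                  ok111
                  (nR 1408 (by decide)
                    (nS 736 (by decide)
                      ok112
                      (nR 1344 (by decide)
                        ok113
                        (nS 752 (by decide)
                          ok114
                          (nR 1376 (by decide)
                            ok115
                            (nS 760 (by decide)
                              ok116
                              ok117)))))
                    (nS 736 (by decide)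
                      (nR 1472 (by decide)
                        (nS 720 (by decide)
                          ok118
                          (nR 1440 (by decide)
                            ok119
                            (nS 728 (by decide)
                              ok120
                              ok121)))
                        (nS 720 (by decide)
                          (nR 1504 (by decide)
                            (nS 712 (by decide)
                              ok122
                              ok123)
                            ok124)
                          ok125))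
                      (nR 1472 (by decide)
                        (nS 752 (by decide)
                          (nR 1440 (by decide)
                            (nS 744 (by decide)
                              ok126
                              ok127)
                            ok128)
                          ok129)
                        ok130))))))
            (nS 640 (by decide)
              (nR 1792 (by decide)
                (nS 576 (by decide)
                  ok131
                  (nR 1664 (by decide)
                    ok132
                    (nS 608 (by decide)
                      ok133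
                      ok134)))
                (nS 576 (by decide)
                  (nR 1920 (by decide)
                    ok135
                    (nS 544 (by decide)
                      ok136
                      ok137))
                  ok138))
              (nR 1792 (by decide)
                (nS 704 (by decide)
                  (nR 1664 (by decide)
                    (nS 672 (by decide)
                      (nR 1600 (by decide)
                        ok139
                        ok140)
                      ok141)
                    ok142)
                  ok143)
                ok144)))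
          (nR 1536 (by decide)
            (nS 896 (by decide)
              (nR 1280 (by decide)
                (nS 832 (by decide)
                  ok145
                  (nR 1152 (by decide)
                    ok146
                    (nS 864 (by decide)
                      (nR 1216 (by decide)
                        ok147
                        (nS 848 (by decide)
                          (nR 1248 (by decide)
                            ok148
                            (nS 840 (by decide)
                              ok149
                              ok150))
                          ok151))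
                      ok152)))
                (nS 832 (by decide)
                  (nR 1408 (by decide)
                    (nS 800 (by decide)
                      (nR 1344 (by decide)
                        (nS 784 (by decide)
                          ok153
                          (nR 1312 (by decide)
                            ok154
                            (nS 792 (by decide)
                              ok155
                              ok156)))
                        (nS 784 (by decide)
                          (nR 1376 (by decide)
                            (nS 776 (by decide)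
                              (nR 1360 (by decide)
                                ok157
                                ok158)
                              ok159)
                            ok160)
                          ok161))
                      (nR 1344 (by decide)
                        (nS 816 (by decide)
                          (nR 1312 (by decide)
                            (nS 808 (by decide)
                              ok162
                              (nR 1296 (by decide)
                                ok163
                                ok164))
                            ok165)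
                          ok166)
                        ok167))
                    ok168)
                  ok169))
              (nR 1280 (by decide)
                (nS 960 (by decide)
                  (nR 1152 (by decide)
                    ok170
                    ok171)
                  (nR 1152 (by decide)
                    (nS 992 (by decide)
                      ok172
                      (nR 1088 (by decide)
                        (nS 1008 (by decide)
                          ok173
                          (nR 1056 (by decide)
                            ok174
                            ok175))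
                        ok176))
                    ok177))
                ok178))
            ok179))))
    (nS 512 (by decide)
      (nR 3072 (by decide)
        (nS 256 (by decide)
          ok180
          ok181)
        ok182)
      ok183))⟩

/-- The tangent of `h ↦ h^(5/4)` at `k ^ 4`. -/
lemma pow54_ge {h k : ℝ} (hh : 0 ≤ h) (hk : 0 ≤ k) :
    5 / 4 * k * h - k ^ 5 / 4 ≤ h ^ (5 / 4 : ℝ) := by
  set q := h ^ (1 / 4 : ℝ) with hq
  have hq0 : 0 ≤ q := rpow_nonneg hh _
  have h4 : h = q ^ 4 := by
    rw [hq, show (1 / 4 : ℝ) = ((4 : ℕ) : ℝ)⁻¹ by norm_num, rpow_inv_natCast_pow hh (by norm_num)]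
  have h5 : h ^ (5 / 4 : ℝ) = q ^ 5 := by
    rw [hq, ← rpow_natCast, ← rpow_mul hh]; norm_num
  rw [h5, h4]
  nlinarith [mul_nonneg (sq_nonneg (q - k))
    (show 0 ≤ 4 * q ^ 3 + 3 * k * q ^ 2 + 2 * k ^ 2 * q + k ^ 3 by positivity)]

/-- The chord of the square root. -/
lemma sqrt_chord {x h1 h2 c1 c2 : ℝ} (hx1 : h1 ≤ x) (hx2 : x ≤ h2) (h12 : h1 < h2) (h10 : 0 ≤ h1)
    (hc1 : c1 ≤ √h1) (hc2 : c2 ≤ √h2) :
    ((h2 - x) * c1 + (x - h1) * c2) / (h2 - h1) ≤ √x := by
  have hw : 0 < h2 - h1 := sub_pos.2 h12
  refine le_trans (div_le_div_of_nonneg_right (add_le_add
    (mul_le_mul_of_nonneg_left hc1 (sub_nonneg.2 hx2))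
    (mul_le_mul_of_nonneg_left hc2 (sub_nonneg.2 hx1))) hw.le) ?_
  rw [div_le_iff₀ hw]
  have hp := sq_sqrt h10
  have hq := sq_sqrt (h10.trans h12.le)
  have hs := sq_sqrt (h10.trans hx1)
  have s12 : √h1 ≤ √h2 := sqrt_le_sqrt h12.le
  set P := √h1
  set Q := √h2
  set X := √x
  have e1 : P ≤ X := sqrt_le_sqrt hx1
  have e2 : X ≤ Q := sqrt_le_sqrt hx2
  rw [← hp, ← hq, ← hs]
  nlinarith [mul_nonneg (mul_nonneg (sub_nonneg.2 e1) (sub_nonneg.2 e2)) (sub_nonneg.2 s12)]

lemma leaf_core {al be ke qn h1 h2 c1 c2 g s r h H : ℝ}
    (hb : (al + be * s ^ 2) / 100000 ≤ √(1 - s ^ 2))
    (hq : 0 < qn) (hke : ke ∈ Set.Icc (0 : ℝ) 100)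
    (h12 : h1 < h2) (h10 : 0 ≤ h1) (hg : 0 ≤ g)
    (hc1 : c1 / 100000 ≤ √(h1 / 1000)) (hc2 : c2 / 100000 ≤ √(h2 / 1000))
    (hs0 : 0 ≤ s) (hs1 : s ≤ 1) (hr : 0 ≤ r) (hsr : s * r ≤ 1)
    (hkey : ∀ e ∈ Set.Icc (0 : ℝ) 1, 3 / 2 * keyJ s r e ≤ h)
    (hH : H = 10 * qn * (al + be * s ^ 2) *
          (3 * (1 - s * r) * (s + (1 - s ^ 2) * r) ^ 2 + 3 * s ^ 3 * r
            + 3 * (1 - s ^ 2) * s ^ 2 * r ^ 2 + (1 - s ^ 2) ^ 2 * s * r ^ 3)
        - 5000 * (qn * qn + 10000 * (1 - s ^ 2)) * (2 + s ^ 2) + 2000000 * qn
        + qn * 30000 * ke * (1 - (s + (1 - s ^ 2) * r) ^ 2) - qn * ke ^ 3)
    (hlo : 0 ≤ H - h1 * (2000 * qn)) (hhi : 0 ≤ h2 * (2000 * qn) - H)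
    (hT : 0 ≤ 1500000 * (3 * s + 2 * (1 - s ^ 2) * r) *
          (633 * 20000000 * (c1 * (h2 * (2000 * qn) - H) + c2 * (H - h1 * (2000 * qn)))
            + 117 * (h2 - h1) * (2500000 * g * H - qn * g ^ 5))
        - 4000000000000000 * (h2 - h1) * qn * (4500000000 * keyQ s r)) :
    keyQ s r ≤ (3 / 2 * (211 / 250) * h ^ (1 / 2 : ℝ) + 9 / 4 * (13 / 125) * h ^ (5 / 4 : ℝ))
      * (s / 2 + (1 - s ^ 2) * r / 3) := by
  have hB : 0 ≤ 1 - s ^ 2 := by nlinarith
  set x := H / (2000000 * qn) with hx
  have hF0 : 0 ≤ 3 * (1 - s * r) * (s + (1 - s ^ 2) * r) ^ 2 + 3 * s ^ 3 * r
      + 3 * (1 - s ^ 2) * s ^ 2 * r ^ 2 + (1 - s ^ 2) ^ 2 * s * r ^ 3 := by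
    have : 0 ≤ 1 - s * r := by linarith
    positivity
  have hxh : x ≤ h := by
    refine le_trans ?_ (hkey (ke / 100)
      ⟨div_nonneg hke.1 (by norm_num), (div_le_one (by norm_num)).2 hke.2⟩)
    have hb2 : √(1 - s ^ 2) ≤ (qn * qn + 10000 * (1 - s ^ 2)) / (200 * qn) := by
      rw [le_div_iff₀ (by positivity)]
      nlinarith [sq_sqrt hB, sq_nonneg (qn - 100 * √(1 - s ^ 2))]
    rw [hx, div_le_iff₀ (by positivity), keyJ, hH]
    have m1 := mul_le_mul_of_nonneg_left hb
      (mul_nonneg (mul_nonneg (show (0 : ℝ) ≤ 1000000 by norm_num) hq.le) hF0)
    have m2 := (mul_le_mul_of_nonneg_left hb2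
      (show 0 ≤ 1000000 * qn * (2 + s ^ 2) by positivity)).trans_eq
      (show 1000000 * qn * (2 + s ^ 2) * ((qn * qn + 10000 * (1 - s ^ 2)) / (200 * qn)) =
        5000 * (qn * qn + 10000 * (1 - s ^ 2)) * (2 + s ^ 2) by field_simp; ring)
    linear_combination m1 + m2
  have hx1 : h1 / 1000 ≤ x := by
    rw [hx, le_div_iff₀ (by positivity)]; linarith
  have hx2 : x ≤ h2 / 1000 := by
    rw [hx, div_le_iff₀ (by positivity)]; linarith
  have hx0 : 0 ≤ x := le_trans (by positivity) hx1
  have e1 := sqrt_chord hx1 hx2 (by linarith) (by positivity) hc1 hc2
  have e2 := pow54_ge hx0 (show 0 ≤ g / 1000 by positivity)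
  have e3 : x ^ (5 / 4 : ℝ) ≤ h ^ (5 / 4 : ℝ) := rpow_le_rpow hx0 hxh (by norm_num)
  have e4 : √x ≤ h ^ (1 / 2 : ℝ) := by rw [← sqrt_eq_rpow]; exact sqrt_le_sqrt hxh
  set M := s / 2 + (1 - s ^ 2) * r / 3 with hM
  have hM0 : 0 ≤ M := by positivity
  have e5 : (633 / 500 * (((h2 / 1000 - x) * (c1 / 100000) + (x - h1 / 1000) * (c2 / 100000)) /
      (h2 / 1000 - h1 / 1000)) + 117 / 500 * (5 / 4 * (g / 1000) * x - (g / 1000) ^ 5 / 4)) * M ≤
      (3 / 2 * (211 / 250) * h ^ (1 / 2 : ℝ) + 9 / 4 * (13 / 125) * h ^ (5 / 4 : ℝ)) * M :=
    mul_le_mul_of_nonneg_right (by linarith [e1, e2, e3, e4]) hM0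
  refine le_trans ?_ e5
  have hw : 0 < h2 - h1 := sub_pos.2 h12
  refine le_of_mul_le_mul_left (a := 4500000000 * 4000000000000000 * (h2 - h1) * qn) ?_
    (by positivity)
  refine le_of_le_of_eq (b := 1500000 * (3 * s + 2 * (1 - s ^ 2) * r) *
      (633 * 20000000 * (c1 * (h2 * (2000 * qn) - H) + c2 * (H - h1 * (2000 * qn)))
        + 117 * (h2 - h1) * (2500000 * g * H - qn * g ^ 5))) (by linear_combination hT) ?_
  have hne : h2 / 1000 - h1 / 1000 ≠ 0 := by intro h0; linarith
  rw [hx, hM]
  field_simp
  ring

lemma sqrt_le_of_sq {c h : ℕ} (hc : c ^ 2 ≤ 10000000 * h) :
    (c : ℝ) / 100000 ≤ √((h : ℝ) / 1000) := by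
  have : (c : ℝ) ^ 2 ≤ 10000000 * h := by exact_mod_cast hc
  exact le_sqrt_of_sq_le (by rw [div_pow]; linarith)

lemma leaf_sound {al be : ℤ} {ke qn h1 h2 c1 c2 g : ℕ} {A B A' B' : ℤ} {s r h : ℝ}
    (hck : check (.leaf al be ke qn h1 h2 c1 c2 g) A B A' B' = true)
    (hA : (A : ℝ) ≤ 1024 * s) (hB : 1024 * s ≤ (B : ℝ))
    (hA' : (A' : ℝ) ≤ 1024 * r) (hB' : 1024 * r ≤ (B' : ℝ))
    (hs : s * r ≤ 1) (hs1 : s ≤ 1) (hs0 : 0 ≤ s) (hr : 0 ≤ r) (hh : 0 ≤ h)
    (hkey : ∀ e ∈ Set.Icc (0 : ℝ) 1, 3 / 2 * keyJ s r e ≤ h) :
    keyQ s r ≤ (3 / 2 * (211 / 250) * h ^ (1 / 2 : ℝ) + 9 / 4 * (13 / 125) * h ^ (5 / 4 : ℝ))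
      * (s / 2 + (1 - s ^ 2) * r / 3) := by
  simp only [check, Bool.and_eq_true, decide_eq_true_eq] at hck
  obtain ⟨⟨⟨⟨⟨⟨⟨⟨⟨⟨⟨⟨⟨hAB, hAB'⟩, h0⟩, hq⟩, hke⟩, h12⟩, hc⟩, hs1'⟩, hs2'⟩, kA⟩, kB⟩, b1⟩, b2⟩,
    b3⟩ := hck
  have v : ∀ e : Expr, bern A B A' B' 1024 e.poly = true → 0 ≤ e.val s r := fun e he =>
    e.rev_poly s r ▸ bern_nonneg hAB hAB' (by norm_num) (by push_cast; exact hA)
      (by push_cast; exact hB) (by push_cast; exact hA') (by push_cast; exact hB') he
  have t1 := v _ b1
  have t2 := v _ b2
  have t3 := v _ b3
  refine leaf_core (al := (al : ℝ)) (be := (be : ℝ)) (ke := (ke : ℝ)) (qn := (qn : ℝ))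
    (h1 := (h1 : ℝ)) (h2 := (h2 : ℝ)) (c1 := (c1 : ℝ)) (c2 := (c2 : ℝ)) (g := (g : ℝ))
    (H := (eH al be ke qn).val s r) (chord_sq hAB h0 hA hB kA kB) (by exact_mod_cast hq)
    ⟨by positivity, by exact_mod_cast hke⟩ (by exact_mod_cast h12) (by positivity)
    (by positivity) (sqrt_le_of_sq hs1') (sqrt_le_of_sq hs2')
    hs0 hs1 hr hs hkey ?_ ?_ ?_ ?_
  · simp only [eH, eF3, eY, eB, val_add, Expr.val]; push_cast; ring
  · simp only [eLo, val_add, Expr.val] at t1; push_cast at t1; linarith
  · simp only [eHi, val_add, Expr.val] at t2; push_cast at t2; linarith
  · simp only [eT, eLo, eHi, val_add, Expr.val] at t3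
    push_cast at t3
    refine t3.trans_eq ?_
    simp only [eQ, eB, val_add, Expr.val, keyQ, cA, cB]
    push_cast
    ring

lemma sound : ∀ (T : Tree) (A B A' B' : ℤ) (s r h : ℝ), check T A B A' B' = true →
    (A : ℝ) ≤ 1024 * s → 1024 * s ≤ (B : ℝ) → (A' : ℝ) ≤ 1024 * r → 1024 * r ≤ (B' : ℝ) →
    s * r ≤ 1 → s + (1 - s ^ 2) * r ≤ 2 → s ≤ 1 → 0 ≤ s → 0 ≤ r → 0 ≤ h →
    (∀ e ∈ Set.Icc (0 : ℝ) 1, 3 / 2 * keyJ s r e ≤ h) →
    keyQ s r ≤ (3 / 2 * (211 / 250) * h ^ (1 / 2 : ℝ) + 9 / 4 * (13 / 125) * h ^ (5 / 4 : ℝ))
      * (s / 2 + (1 - s ^ 2) * r / 3)
  | .leaf .., A, B, A', B', s, r, h, hc, hA, hB, hA', hB', hs, _, h1, h0, hr, hh, hk =>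
    leaf_sound hc hA hB hA' hB' hs h1 h0 hr hh hk
  | .outT, A, B, A', B', s, r, h, hc, hA, hB, hA', hB', hs, hy, h1, h0, hr, hh, hk => by
    simp only [check, Bool.and_eq_true, decide_eq_true_eq] at hc
    have h2 : (1048576 : ℝ) < A * A' := by exact_mod_cast hc.1.1
    have : (A : ℝ) * A' ≤ (1024 * s) * (1024 * r) :=
      mul_le_mul hA hA' (by exact_mod_cast hc.2) (by linarith)
    nlinarith
  | .outY, A, B, A', B', s, r, h, hc, hA, hB, hA', hB', hs, hy, h1, h0, hr, hh, hk => by
    simp only [check, Bool.and_eq_true, decide_eq_true_eq] at hc
    obtain ⟨⟨⟨⟨⟨hL, hR⟩, hA0⟩, hAB⟩, -⟩, -⟩ := hc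
    have hL' : (2 * 1073741824 : ℝ) < A * 1048576 + (1048576 - (A : ℝ) ^ 2) * A' := by
      exact_mod_cast hL
    have hR' : (2 * 1073741824 : ℝ) < B * 1048576 + (1048576 - (B : ℝ) ^ 2) * A' := by
      exact_mod_cast hR
    have hA0' : (0 : ℝ) ≤ A' := by exact_mod_cast hA0
    have hm : (1 - s ^ 2) * (A' : ℝ) ≤ (1 - s ^ 2) * (1024 * r) :=
      mul_le_mul_of_nonneg_left hA' (by nlinarith)
    have hc' := mul_nonneg (mul_nonneg hA0' (sub_nonneg.2 hA)) (sub_nonneg.2 hB)
    exfalso
    rcases le_total (1048576 - (A' : ℝ) * (A + B)) 0 with h' | h'
    · nlinarith [mul_nonneg (sub_nonneg.2 hB) (neg_nonneg.2 h')]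
    · nlinarith [mul_nonneg (sub_nonneg.2 hA) h']
  | .sS l g, A, B, A', B', s, r, h, hc, hA, hB, hA', hB', hs, hy, h1, h0, hr, hh, hk => by
    simp only [check, Bool.and_eq_true] at hc
    rcases le_total (1024 * s) (((A + B) / 2 : ℤ) : ℝ) with hm | hm
    · exact sound l A _ A' B' s r h hc.1 hA hm hA' hB' hs hy h1 h0 hr hh hk
    · exact sound g _ B A' B' s r h hc.2 hm hB hA' hB' hs hy h1 h0 hr hh hk
  | .sR l g, A, B, A', B', s, r, h, hc, hA, hB, hA', hB', hs, hy, h1, h0, hr, hh, hk => by
    simp only [check, Bool.and_eq_true] at hc
    rcases le_total (1024 * r) (((A' + B') / 2 : ℤ) : ℝ) with hm | hm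
    · exact sound l A B A' _ s r h hc.1 hA hB hA' hm hs hy h1 h0 hr hh hk
    · exact sound g A B _ B' s r h hc.2 hA hB hm hB' hs hy h1 h0 hr hh hk

/-- `KeyFour` holds. -/
theorem keyFour : KeyFour := by
  intro s r h h0 h1 hr hs hy hh hk
  obtain ⟨T, hT⟩ := cert_ok
  refine sound T 0 1024 0 4096 s r h hT (by push_cast; linarith) (by push_cast; linarith)
    (by push_cast; linarith) ?_ hs hy h1 h0.le hr hh hk
  push_cast
  nlinarith [mul_nonneg hr (sq_nonneg s), mul_nonneg h0.le hr]

end Vale.Agent.P237.Four.Cert

namespace Vale.Agent.P237.Four

/-- Petty's projection-volume conjecture in dimension four, with the equality case. -/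
theorem petty_four_full (K : Set (E 4)) (hc : Convex ℝ K) (hk : IsCompact K)
    (hi : (interior K).Nonempty) :
    (∀ u : E 4, ‖u‖ = 1 →
      IsGreatest ((fun y => inner ℝ y u) '' ProjectionBody K) (shadow K u)) ∧
    1024 / 81 * (MeasureTheory.volume K).toReal ^ 3 ≤
      (MeasureTheory.volume (ProjectionBody K)).toReal ∧
    ((MeasureTheory.volume (ProjectionBody K)).toReal =
      1024 / 81 * (MeasureTheory.volume K).toReal ^ 3 ↔ IsEllipsoid4 K) :=
  petty_four_of_key Cert.keyFour K hc hk hi

end Vale.Agent.P237.Four
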