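import Vale.Agent.P237.OneDimCert

/-!
# P237, `n = 4`: integer polynomials in two variables and their Bernstein test

A polynomial in `(s, r)` is the list, by powers of `r`, of its coefficient lists in `s`.
-/

namespace Vale.Agent.P237.Four.Cert

open OneDimCert

/-- Sum of coefficient lists. -/
def padd : List ℤ → List ℤ → List ℤ
  | [], q => q
  | p, [] => p
  | a :: p, b :: q => (a + b) :: padd p q

lemma pev_padd (x : ℝ) : ∀ p q : List ℤ, pev x (padd p q) = pev x p + pev x q
  | [], q => by simp [padd, pev]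
  | a :: p, [] => by simp [padd, pev]
  | a :: p, b :: q => by simp [padd, pev, pev_padd x p q]; ring

/-- Scalar multiple. -/
def psm (c : ℤ) : List ℤ → List ℤ
  | [] => []
  | a :: p => c * a :: psm c p

lemma pev_psm (x : ℝ) (c : ℤ) : ∀ p, pev x (psm c p) = c * pev x p
  | [] => by simp [psm, pev]
  | a :: p => by simp [psm, pev, pev_psm x c p]; ring

/-- Product. -/
def pmul : List ℤ → List ℤ → List ℤ
  | [], _ => []
  | a :: p, q => padd (psm a q) (0 :: pmul p q)

lemma pev_pmul (x : ℝ) : ∀ p q : List ℤ, pev x (pmul p q) = pev x p * pev x q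
  | [], q => by simp [pmul, pev]
  | a :: p, q => by simp [pmul, pev, pev_padd, pev_psm, pev_pmul x p q]; ring

/-- Value of a polynomial in two variables. -/
def rev (s r : ℝ) : List (List ℤ) → ℝ
  | [] => 0
  | p :: P => pev s p + r * rev s r P

/-- Sum of polynomials in two variables. -/
def badd : List (List ℤ) → List (List ℤ) → List (List ℤ)
  | [], Q => Q
  | P, [] => P
  | p :: P, q :: Q => padd p q :: badd P Q

lemma rev_badd (s r : ℝ) : ∀ P Q, rev s r (badd P Q) = rev s r P + rev s r Q
  | [], Q => by simp [badd, rev]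
  | p :: P, [] => by simp [badd, rev]
  | p :: P, q :: Q => by simp [badd, rev, pev_padd, rev_badd s r P Q]; ring

/-- Multiplication by a polynomial in `s`. -/
def bsmP (c : List ℤ) : List (List ℤ) → List (List ℤ)
  | [] => []
  | p :: P => pmul c p :: bsmP c P

lemma rev_bsmP (s r : ℝ) (c : List ℤ) : ∀ P, rev s r (bsmP c P) = pev s c * rev s r P
  | [] => by simp [bsmP, rev]
  | p :: P => by simp [bsmP, rev, pev_pmul, rev_bsmP s r c P]; ring

/-- Product of polynomials in two variables. -/
def bmul : List (List ℤ) → List (List ℤ) → List (List ℤ)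
  | [], _ => []
  | p :: P, Q => badd (bsmP p Q) ([] :: bmul P Q)

lemma rev_bmul (s r : ℝ) : ∀ P Q, rev s r (bmul P Q) = rev s r P * rev s r Q
  | [], Q => by simp [bmul, rev]
  | p :: P, Q => by simp [bmul, rev, pev, rev_badd, rev_bsmP, rev_bmul s r P Q]; ring

/-- Polynomial expressions. -/
inductive Expr where
  | cst (c : ℤ)
  | varS
  | varR
  | add (a b : Expr)
  | mul (a b : Expr)

/-- Coefficients of an expression. -/
def Expr.poly : Expr → List (List ℤ)
  | .cst c => [[c]]
  | .varS => [[0, 1]]
  | .varR => [[], [1]]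
  | .add a b => badd a.poly b.poly
  | .mul a b => bmul a.poly b.poly

/-- Value of an expression. -/
def Expr.val (s r : ℝ) : Expr → ℝ
  | .cst c => c
  | .varS => s
  | .varR => r
  | .add a b => a.val s r + b.val s r
  | .mul a b => a.val s r * b.val s r

lemma Expr.rev_poly (s r : ℝ) : ∀ e : Expr, rev s r e.poly = e.val s r
  | .cst c => by simp [Expr.poly, Expr.val, rev, pev]
  | .varS => by simp [Expr.poly, Expr.val, rev, pev]
  | .varR => by simp [Expr.poly, Expr.val, rev, pev]
  | .add a b => by simp [Expr.poly, Expr.val, rev_badd, Expr.rev_poly s r a, Expr.rev_poly s r b]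
  | .mul a b => by simp [Expr.poly, Expr.val, rev_bmul, Expr.rev_poly s r a, Expr.rev_poly s r b]

/-- Zero padding to length `n`. -/
def padTo : ℕ → List ℤ → List ℤ
  | n, [] => List.replicate n 0
  | 0, p => p
  | n + 1, a :: p => a :: padTo n p

lemma pev_replicate (x : ℝ) : ∀ n, pev x (List.replicate n (0 : ℤ)) = 0
  | 0 => by simp [pev]
  | n + 1 => by simp [List.replicate_succ, pev, pev_replicate x n]

lemma pev_padTo (x : ℝ) : ∀ n p, pev x (padTo n p) = pev x p
  | n, [] => by simp [padTo, pev, pev_replicate]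
  | 0, a :: p => by simp [padTo]
  | n + 1, a :: p => by simp [padTo, pev, pev_padTo x n p]

/-- Bernstein test in the second variable of `m` columns. -/
def chkN (A B D : ℤ) : ℕ → List (List ℤ) → Bool
  | 0, rows => rows.all (·.isEmpty)
  | m + 1, rows => rows.all (·.length == m + 1) &&
      (tr A B D (rows.map (·.headD 0))).all (0 ≤ ·) && chkN A B D m (rows.map (·.tail))

/-- The value of rows of Bernstein coefficients. -/
def hrev (v u r : ℝ) : List (List ℤ) → ℝ
  | [] => 0
  | l :: L => hev v u l + r * hrev v u r L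

lemma hrev_cons (v u r : ℝ) (m : ℕ) : ∀ rows : List (List ℤ), rows.all (·.length == m + 1) = true →
    hrev v u r rows = pev r (rows.map (·.headD 0)) * v ^ m + u * hrev v u r (rows.map (·.tail))
  | [], _ => by simp [hrev, pev]
  | l :: L, h => by
    simp only [List.all_cons, Bool.and_eq_true, beq_iff_eq] at h
    obtain ⟨a, t, rfl⟩ : ∃ a t, l = a :: t := List.exists_cons_of_length_eq_add_one h.1
    simp only [List.length_cons, Nat.add_right_cancel_iff] at h
    simp only [List.map_cons, List.headD_cons, List.tail_cons, hrev, hev, pev, h.1,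
      hrev_cons v u r m L h.2]
    ring

lemma hrev_empty (v u r : ℝ) : ∀ rows : List (List ℤ), rows.all (·.isEmpty) = true →
    hrev v u r rows = 0
  | [], _ => rfl
  | l :: L, h => by
    simp only [List.all_cons, Bool.and_eq_true, List.isEmpty_iff] at h
    simp [hrev, h.1, hev, hrev_empty v u r L h.2]

lemma chkN_nonneg {A B D : ℤ} (hAB : A < B) (hD : 0 < D) {r : ℝ} (hA : (A : ℝ) ≤ D * r)
    (hB : D * r ≤ (B : ℝ)) {v u : ℝ} (hv : 0 ≤ v) (hu : 0 ≤ u) :
    ∀ (m : ℕ) (rows : List (List ℤ)), chkN A B D m rows = true → 0 ≤ hrev v u r rows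
  | 0, rows, h => by rw [hrev_empty v u r rows h]
  | m + 1, rows, h => by
    simp only [chkN, Bool.and_eq_true] at h
    rw [hrev_cons v u r m rows h.1.1]
    exact add_nonneg (mul_nonneg (pev_nonneg hAB hD hA hB _ h.1.2) (pow_nonneg hv _))
      (mul_nonneg hu (chkN_nonneg hAB hD hA hB hv hu m _ h.2))

/-- Length of the longest row. -/
def width : List (List ℤ) → ℕ
  | [] => 0
  | p :: P => max p.length (width P)

/-- Bernstein test on a box `[A/D, B/D] × [A'/D, B'/D]`. -/
def bern (A B A' B' D : ℤ) (P : List (List ℤ)) : Bool :=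
  let n := width P
  let rows := P.map fun p => tr A B D (padTo n p)
  (rows.all (·.length == n)) && chkN A' B' D n rows

lemma bern_nonneg {A B A' B' D : ℤ} (hAB : A < B) (hAB' : A' < B') (hD : 0 < D) {s r : ℝ}
    (hA : (A : ℝ) ≤ D * s) (hB : D * s ≤ (B : ℝ)) (hA' : (A' : ℝ) ≤ D * r)
    (hB' : D * r ≤ (B' : ℝ)) {P : List (List ℤ)} (h : bern A B A' B' D P = true) :
    0 ≤ rev s r P := by
  have hw : (0 : ℝ) < B - A := by exact_mod_cast sub_pos.2 hAB
  obtain ⟨v, hvd⟩ : ∃ v, v = (B - D * s) / ((B : ℝ) - A) := ⟨_, rfl⟩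
  obtain ⟨u, hud⟩ : ∃ u, u = (D * s - A) / ((B : ℝ) - A) := ⟨_, rfl⟩
  have hvu : v + u = 1 := by rw [hvd, hud]; field_simp; ring
  have hx : (A * v + B * u : ℝ) = D * s := by rw [hvd, hud]; field_simp; ring
  simp only [bern, Bool.and_eq_true] at h
  have h0 := chkN_nonneg hAB' hD hA' hB' (v := v) (u := u)
    (hvd ▸ div_nonneg (by linarith) hw.le) (hud ▸ div_nonneg (by linarith) hw.le) _ _ h.2
  have key : ∀ (n : ℕ) (L : List (List ℤ)),
      ((L.map fun p => tr A B D (padTo n p)).all (·.length == n)) = true →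
      hrev v u r (L.map fun p => tr A B D (padTo n p)) * D = (D : ℝ) ^ n * rev s r L := by
    intro n L
    induction L with
    | nil => intro _; simp [hrev, rev]
    | cons p L ih =>
      intro hall
      simp only [List.map_cons, List.all_cons, Bool.and_eq_true, beq_iff_eq, tr_length] at hall
      simp only [List.map_cons, hrev, rev, add_mul, mul_assoc, ih hall.2, hev_tr hvu hx,
        pev_padTo, hall.1]
      ring
  have hD' : (0 : ℝ) < D := by exact_mod_cast hD
  exact nonneg_of_mul_nonneg_right (key _ P h.1 ▸ mul_nonneg h0 hD'.le) (pow_pos hD' _)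

end Vale.Agent.P237.Four.Cert
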