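import Vale.Agent.P237.Basics

/-!
# P237, `n = 4`: the second moment of a body of given volume is least for the ball
-/

namespace Vale.Agent.P237.Four

open MeasureTheory Set Filter Topology Metric
open scoped Pointwise RealInnerProductSpace ENNReal

lemma volume_ball4 (r : ℝ) (hr : 0 ≤ r) :
    volume (closedBall (0 : E 4) r) = ENNReal.ofReal (Real.pi ^ 2 / 2 * r ^ 4) := by
  rw [InnerProductSpace.volume_closedBall_of_dim_even (k := 2) (by simp),
    finrank_euclideanSpace_fin, ← ENNReal.ofReal_pow hr,
    ← ENNReal.ofReal_mul (pow_nonneg hr 4)]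
  congr 1
  norm_num [Nat.factorial]
  ring

lemma vol_ball4 (r : ℝ) (hr : 0 ≤ r) :
    vol (closedBall (0 : E 4) r) = Real.pi ^ 2 / 2 * r ^ 4 := by
  rw [vol, volume_ball4 r hr, ENNReal.toReal_ofReal (by positivity)]

lemma integral_ball4_normSq (r : ℝ) (hr : 0 ≤ r) :
    ∫ x in closedBall (0 : E 4) r, ‖x‖ ^ 2 = Real.pi ^ 2 / 3 * r ^ 6 := by
  have h : ∀ x : E 4, (closedBall (0 : E 4) r).indicator (fun x => ‖x‖ ^ 2) x =
      (fun s : ℝ => (Iic r).indicator (fun s => s ^ 2) s) ‖x‖ := by
    intro x
    by_cases hx : ‖x‖ ≤ r <;> simp [hx]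
  rw [← integral_indicator isClosed_closedBall.measurableSet, funext h,
    integral_fun_norm_addHaar volume (fun s : ℝ => (Iic r).indicator (fun s => s ^ 2) s)]
  simp only [finrank_euclideanSpace_fin, nsmul_eq_mul, smul_eq_mul]
  have h2 : ∀ y : ℝ, y ^ (4 - 1) * (Iic r).indicator (fun s => s ^ 2) y =
      (Iic r).indicator (fun s => s ^ 5) y := by
    intro y
    by_cases hy : y ≤ r
    · simp [hy]; ring
    · simp [hy]
  simp only [h2]
  rw [setIntegral_indicator measurableSet_Iic, Ioi_inter_Iic,
    ← intervalIntegral.integral_of_le hr, integral_pow]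
  have hb : volume.real (ball (0 : E 4) 1) = Real.pi ^ 2 / 2 := by
    have h1 := (Measure.addHaar_closedBall_eq_addHaar_ball volume (0 : E 4) 1).symm
    rw [Measure.real, h1]
    have := vol_ball4 1 zero_le_one
    simpa [vol] using this
  rw [hb]
  norm_num
  ring

/-- Among bodies of the same volume the centred ball has the least second moment, uniquely. -/
theorem moment_ge {K : Set (E 4)} (hK : Body K) {r : ℝ} (hr : 0 ≤ r)
    (hV : vol K = Real.pi ^ 2 / 2 * r ^ 4) :
    Real.pi ^ 2 / 3 * r ^ 6 ≤ ∫ x in K, ‖x‖ ^ 2 ∧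
    ((∫ x in K, ‖x‖ ^ 2) ≤ Real.pi ^ 2 / 3 * r ^ 6 → K = closedBall 0 r) := by
  set B := closedBall (0 : E 4) r
  set f : E 4 → ℝ := fun x => ‖x‖ ^ 2 - r ^ 2 with hf
  have hKm := hK.compact.isClosed.measurableSet
  have hBm : MeasurableSet B := isClosed_closedBall.measurableSet
  have hBc : IsCompact B := isCompact_closedBall _ _
  have hfK : IntegrableOn f K :=
    (by fun_prop : Continuous f).continuousOn.integrableOn_compact hK.compact
  have hfB : IntegrableOn f B := (by fun_prop : Continuous f).continuousOn.integrableOn_compact hBc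
  have hval : ∀ S : Set (E 4), IsCompact S →
      ∫ x in S, f x = (∫ x in S, ‖x‖ ^ 2) - r ^ 2 * vol S := by
    intro S hS
    rw [hf, integral_sub
      ((by fun_prop : Continuous fun x : E 4 => ‖x‖ ^ 2).continuousOn.integrableOn_compact hS)
      (integrableOn_const hS.measure_lt_top.ne)]
    simp [vol, Measure.real, mul_comm]
  have hsum : (∫ x in K \ B, f x) - ∫ x in B \ K, f x =
      (∫ x in K, ‖x‖ ^ 2) - Real.pi ^ 2 / 3 * r ^ 6 := by
    have e1 := integral_inter_add_diff hBm hfK
    have e2 := integral_inter_add_diff hKm hfB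
    rw [inter_comm] at e2
    have e3 := hval K hK.compact
    have e4 := hval B hBc
    rw [integral_ball4_normSq r hr, vol_ball4 r hr] at e4
    rw [hV] at e3
    linarith
  have hout : ∀ x ∈ K \ B, 0 < f x := by
    rintro x ⟨-, hx⟩
    simp only [B, mem_closedBall_zero_iff, not_le] at hx
    simp only [hf, sub_pos]
    exact pow_lt_pow_left₀ hx hr two_ne_zero
  have hin : ∀ x ∈ B \ K, f x ≤ 0 := by
    rintro x ⟨hx, -⟩
    simp only [B, mem_closedBall_zero_iff] at hx
    simp only [hf, sub_nonpos]
    exact pow_le_pow_left₀ (norm_nonneg x) hx 2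
  have p1 : 0 ≤ ∫ x in K \ B, f x :=
    setIntegral_nonneg (hKm.diff hBm) fun x hx => (hout x hx).le
  have p2 : (∫ x in B \ K, f x) ≤ 0 := setIntegral_nonpos (hBm.diff hKm) hin
  refine ⟨by linarith, fun hle => ?_⟩
  have h0 : ∫ x in K \ B, f x = 0 := by linarith
  rw [setIntegral_eq_zero_iff_of_nonneg_ae
    ((ae_restrict_iff' (hKm.diff hBm)).2 (ae_of_all _ fun x hx => (hout x hx).le))
    (hfK.mono_set diff_subset)] at h0
  have hnull : volume (K \ B) = 0 := by
    rw [EventuallyEq, ae_restrict_iff' (hKm.diff hBm), ae_iff] at h0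
    refine measure_mono_null (fun x hx => ?_) h0
    simp only [Pi.zero_apply, mem_ofPred_eq, Classical.not_imp]
    exact ⟨hx, (hout x hx).ne'⟩
  have hKB : K ⊆ B := by
    have hsub : interior K ⊆ B := by
      intro x hx
      by_contra hxB
      have ho : IsOpen (interior K \ B) := isOpen_interior.sdiff isClosed_closedBall
      exact (ho.measure_pos volume ⟨x, hx, hxB⟩).ne'
        (measure_mono_null (diff_subset_diff_left interior_subset) hnull)
    calc K = closure (interior K) := by
          rw [hK.convex.closure_interior_eq_closure_of_nonempty_interior hK.interior_nonempty,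
            hK.compact.isClosed.closure_eq]
      _ ⊆ B := closure_minimal hsub isClosed_closedBall
  refine Subset.antisymm hKB ?_
  have hnull2 : volume (B \ K) = 0 := by
    have he : volume K = volume B := by
      rw [← ENNReal.toReal_eq_toReal_iff' hK.compact.measure_lt_top.ne hBc.measure_lt_top.ne]
      exact hV.trans (vol_ball4 r hr).symm
    rw [measure_sdiff hKB hKm.nullMeasurableSet hK.compact.measure_lt_top.ne, he, tsub_self]
  rcases hr.eq_or_lt with h | h
  · have hB0 : volume B = 0 := by rw [volume_ball4 r hr, ← h]; simp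
    have : interior K = ∅ := by
      by_contra hne
      exact (isOpen_interior.measure_pos volume (nonempty_iff_ne_empty.2 hne)).ne'
        (measure_mono_null (interior_subset.trans hKB) hB0)
    exact absurd this hK.interior_nonempty.ne_empty
  have hopen : IsOpen (ball (0 : E 4) r \ K) := isOpen_ball.sdiff hK.compact.isClosed
  have hball : ball (0 : E 4) r ⊆ K := by
    intro x hx
    by_contra hxK
    exact (hopen.measure_pos volume ⟨x, hx, hxK⟩).ne'
      (measure_mono_null (diff_subset_diff_left ball_subset_closedBall) hnull2)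
  calc B = closure (ball (0 : E 4) r) := (closure_ball _ h.ne').symm
    _ ⊆ K := closure_minimal hball hK.compact.isClosed

end Vale.Agent.P237.Four
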